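import Vale.Agent.P022D.End.Main
import Vale.Agent.P022.H353.Wd

/-!
# N022: what occurs in the Hecke algebra is odd
-/

set_option linter.all false

open scoped MatrixGroups ModularForm TensorProduct
open NumberField Matrix UpperHalfPlane CongruenceSubgroup

noncomputable section

namespace Vale.Agent.N022

open Vale.Agent.P022 Vale.Agent.P022.H567.Tw Vale.Agent.P022.H853 Vale.Agent.P022.H790.CT
  Vale.Agent.P022D.Dk Vale.Agent.P022D.Top Vale.Agent.P022D.End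

/-! ### from the words of the statement to limits of systems -/

section

variable {N : ℕ} [NeZero N]

/-- the generators in `T_{≤ k}` -/
def gR (N : ℕ) [NeZero N] (k : ℕ) : Gen N → St.TR N k :=
  Sum.elim (fun ℓ => (⟨St.opT N k ℓ, Subring.subset_closure (Or.inl ⟨ℓ, rfl⟩)⟩ : St.TA N k))
    (fun ℓ => (⟨St.opS N k ℓ, Subring.subset_closure (Or.inr ⟨ℓ, rfl⟩)⟩ : St.TA N k))

/-- the generators in `T₂` -/
def g2 (N : ℕ) [NeZero N] : Gen N → St.T2 N := Sum.elim (St.elT N) (St.elS N)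

/-- the component as a ring map -/
def compH (N : ℕ) [NeZero N] (k : ℕ) : St.T2 N →+* St.TZ N k where
  toFun x := x.comp k
  map_one' := rfl
  map_mul' _ _ := rfl
  map_zero' := rfl
  map_add' _ _ := rfl

/-- `t ↦ 1 ⊗ t` -/
def tzH (N : ℕ) [NeZero N] (k : ℕ) : St.TR N k →+* St.TZ N k :=
  (Algebra.TensorProduct.includeRight (R := ℤ) (A := ℤ_[2]) (B := St.TR N k)).toRingHom

/-- the operator in weight `i + 1` -/
def evH (N : ℕ) [NeZero N] (k : ℕ) (i : Fin k) : St.TR N k →+* Module.End ℂ (MF N (i + 1)) where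
  toFun x := St.iW N k (x : St.TA N k).1 i
  map_one' := rfl
  map_mul' _ _ := rfl
  map_zero' := rfl
  map_add' _ _ := rfl

theorem lift_map {S A B : Type} [Ring A] [Ring B] (f : A →+* B) (a : S → A)
    (X : FreeAlgebra ℤ S) :
    f (FreeAlgebra.lift ℤ a X) = FreeAlgebra.lift ℤ (fun s => f (a s)) X := by
  induction X using FreeAlgebra.induction with
  | grade0 n => rw [AlgHom.commutes, AlgHom.commutes, eq_intCast, eq_intCast, map_intCast]
  | grade1 s => rw [FreeAlgebra.lift_ι_apply, FreeAlgebra.lift_ι_apply]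
  | mul p q hp hq => rw [map_mul, map_mul, map_mul, hp, hq]
  | add p q hp hq => rw [map_add, map_add, map_add, hp, hq]

theorem st_lim {E : Type} [NontriviallyNormedField E] [NormedAlgebra ℚ_[2] E]
    (lam : St.T2 N →+* E) (h : St.IsContHom N lam) : Lim N (fun s => lam (g2 N s)) := by
  intro ε hε
  obtain ⟨k, n, hk⟩ := h.2.2 ε hε
  refine ⟨k, fun X hX => ?_⟩
  rw [← lift_map]
  refine hk _ ⟨0, ?_⟩
  have h1 : FreeAlgebra.lift ℤ (gR N k) X = 0 := by
    refine Subtype.ext (funext fun i => ?_)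
    have h2 := lift_map (evH N k i) (gR N k) X
    have h3 : (fun s => evH N k i (gR N k s)) = fun s => gHk N s i := by
      funext s
      rcases s with ℓ | ℓ
      · exact congrFun (St.iW_opT N k ℓ) i
      · exact congrFun (St.iW_opS N k ℓ) i
    rw [h3, hX i i.2] at h2
    exact h2
  have h4 := lift_map (compH N k) (g2 N) X
  have h5 : (fun s => compH N k (g2 N s)) = fun s => tzH N k (gR N k s) := by
    funext s
    rcases s with ℓ | ℓ <;> rfl
  rw [h5, ← lift_map, h1, map_zero] at h4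
  rw [smul_zero]
  exact h4

theorem limR_of_st {E : Type} [NontriviallyNormedField E] [NormedAlgebra ℚ_[2] E]
    {r : GQ →* GL (Fin 2) E} (h : St.Occurs N r) : LimR N r := by
  obtain ⟨-, lam, h1, h2⟩ := h
  intro φ hφ
  have e : sys r φ = fun s => lam (g2 N s) := by
    funext s
    rcases s with ℓ | ℓ
    · exact (h2 ℓ (φ ℓ) (hφ ℓ)).1.symm
    · exact (h2 ℓ (φ ℓ) (hφ ℓ)).2.symm
  rw [e]
  exact st_lim lam h1

theorem norm_of_st {E : Type} [NontriviallyNormedField E] [NormedAlgebra ℚ_[2] E]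
    {r : GQ →* GL (Fin 2) E} (h : St.Occurs N r) (φ : PA N → GQ) (hφ : ∀ ℓ, IsFrob ℓ.1 (φ ℓ)) :
    ∀ s, ‖sys r φ s‖ ≤ 1 := by
  obtain ⟨-, lam, h1, h2⟩ := h
  rintro (ℓ | ℓ)
  · change ‖(r (φ ℓ) : Matrix (Fin 2) (Fin 2) E).trace‖ ≤ 1
    rw [← (h2 ℓ (φ ℓ) (hφ ℓ)).1]
    exact h1.2.1 _
  · change ‖(r (φ ℓ) : Matrix (Fin 2) (Fin 2) E).det‖ ≤ 1
    rw [← (h2 ℓ (φ ℓ) (hφ ℓ)).2]
    exact h1.2.1 _

/-! ### the diamond operators `⟨1⟩` and `⟨-1⟩` -/

theorem dia_one (k : ℕ) (ℓ : PA N) (h : (ℓ.1 : ZMod N) = 1) : H783.dia k ℓ = 1 := by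
  refine LinearMap.ext fun f => DFunLike.coe_injective ?_
  beta_reduce
  rw [H783.dia_coe, H783.dFun_eq ℓ (s := 1) (one_mem _) (by simp [h]), SlashAction.slash_one]
  rfl

theorem dia_neg (k : ℕ) (ℓ : PA N) (h : (ℓ.1 : ZMod N) = -1) :
    H783.dia k ℓ = ((-1 : ℂ) ^ k) • (1 : Module.End ℂ (MF N k)) := by
  refine LinearMap.ext fun f => DFunLike.coe_injective ?_
  beta_reduce
  rw [H783.dia_coe, H783.dFun_eq ℓ (s := -1) (by rw [Gamma0_mem]; simp) (by simp [h])]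
  funext τ
  rw [ModularForm.SL_slash_apply]
  have h1 : (-1 : SL(2, ℤ)) • τ = τ := by rw [ModularGroup.SL_neg_smul, one_smul]
  have h2 : denom ((-1 : SL(2, ℤ)) : GL (Fin 2) ℝ) τ = -1 := by
    rw [ModularGroup.denom_apply]
    simp
  rw [h1, h2, _root_.zpow_neg, zpow_natCast]
  have h3 : ((-1 : ℂ) ^ k)⁻¹ = (-1) ^ k := by rw [← inv_pow, inv_neg, inv_one]
  rw [h3, mul_comm]
  rfl

end

/-- interpolation by integral polynomials -/
theorem interp (k : ℕ) (y : ℕ → ℤ) (hy : ∀ i j, y i = y j → i = j) : ∃ D : ℤ, D ≠ 0 ∧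
    ∀ v : ℕ → ℤ, (∀ i, D ∣ v i) → ∃ p : Polynomial ℤ, ∀ i < k, p.eval (y i) = v i := by
  classical
  let d : ℕ → ℤ := fun i => ∏ j ∈ (Finset.range k).erase i, (y i - y j)
  have hd : ∀ i, d i ≠ 0 := fun i => Finset.prod_ne_zero_iff.2 fun j hj h =>
    (Finset.mem_erase.1 hj).1 (hy _ _ (sub_eq_zero.1 h)).symm
  refine ⟨∏ i ∈ Finset.range k, d i, Finset.prod_ne_zero_iff.2 fun i _ => hd i, fun v hv => ?_⟩
  refine ⟨∑ i ∈ Finset.range k, Polynomial.C (v i / d i) *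
    ∏ j ∈ (Finset.range k).erase i, (Polynomial.X - Polynomial.C (y j)), fun i hi => ?_⟩
  have hi' := Finset.mem_range.2 hi
  rw [Polynomial.eval_finset_sum, Finset.sum_eq_single_of_mem i hi']
  · rw [Polynomial.eval_mul, Polynomial.eval_C, Polynomial.eval_prod]
    simp only [Polynomial.eval_sub, Polynomial.eval_X, Polynomial.eval_C]
    exact Int.ediv_mul_cancel ((Finset.dvd_prod_of_mem d hi').trans (hv i))
  · intro j _ hji
    rw [Polynomial.eval_mul, Polynomial.eval_prod,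
      Finset.prod_eq_zero (Finset.mem_erase.2 ⟨hji.symm, hi'⟩) (by simp), mul_zero]

theorem ex_prime (N M : ℕ) (hN : N ≠ 0) [NeZero M] (a : ZMod M) (ha : IsUnit a) :
    ∃ ℓ : PA N, (ℓ.1 : ZMod M) = a := by
  obtain ⟨p, h1, h2, h3⟩ := Nat.forall_exists_prime_gt_and_eq_mod ha (2 * N)
  exact ⟨⟨p, h2, fun h => absurd (Nat.le_of_dvd (by omega) h) (by omega)⟩, h3⟩

theorem cast_of {M m : ℕ} (h : m ∣ M) {l : ℕ} (hl : (l : ZMod M) = -1) : (l : ZMod m) = -1 := by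
  have := congrArg (ZMod.castHom h (ZMod m)) hl
  rwa [map_natCast, map_neg, map_one] at this

section

variable {E : Type} [NontriviallyNormedField E] [NormedAlgebra ℚ_[2] E]

theorem norm_two_E : ‖(2 : E)‖ = 2⁻¹ := by
  have e : (2 : E) = algebraMap ℚ_[2] E ((2 : ℕ) : ℚ_[2]) := by
    rw [map_natCast]
    norm_num
  rw [e, norm_algebraMap', Padic.norm_p]
  norm_num

/-- `λ(ℓ S_ℓ)` is close to `-1` when `ℓ` is close to `-1` -/
theorem lim_neg [IsUltrametricDist E] {N : ℕ} [NeZero N] {a : Gen N → E} (ha : ∀ s, ‖a s‖ ≤ 1)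
    (h : Lim N a) : ∃ M : ℕ, M ≠ 0 ∧ ∀ ℓ : PA N, (ℓ.1 : ZMod M) = -1 →
      ‖a (Sum.inr ℓ) + 1‖ < 2⁻¹ := by
  obtain ⟨k, hk⟩ := h 2⁻¹ (by norm_num)
  obtain ⟨q, hq⟩ := ex_prime N N (NeZero.ne N) 1 isUnit_one
  obtain ⟨D, D0, hD⟩ := interp k (fun i => (q.1 : ℤ) ^ i) fun i j e =>
    Nat.pow_right_injective q.2.1.two_le (by exact_mod_cast e)
  refine ⟨4 * D.natAbs * N, by positivity [NeZero.ne N], fun ℓ hℓ => ?_⟩
  have h1 : (ℓ.1 : ZMod N) = -1 := cast_of (dvd_mul_left _ _) hℓ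
  have h2 : (4 * D : ℤ) ∣ 1 - (-(ℓ.1 : ℤ)) := by
    have h3 := cast_of (dvd_mul_right (4 * D.natAbs) N) hℓ
    have h4 : ((4 * D.natAbs : ℕ) : ℤ) ∣ 1 - (-(ℓ.1 : ℤ)) := by
      rw [← ZMod.intCast_zmod_eq_zero_iff_dvd]
      push_cast
      rw [h3]
      ring
    refine Dvd.dvd.trans ?_ h4
    push_cast
    exact mul_dvd_mul_left 4 (self_dvd_abs D)
  have h5 : ∀ i : ℕ, (4 * D : ℤ) ∣ 1 - (-(ℓ.1 : ℤ)) ^ i := fun i => by
    have := sub_dvd_pow_sub_pow (1 : ℤ) (-(ℓ.1 : ℤ)) i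
    rw [one_pow] at this
    exact h2.trans this
  choose w hw using h5
  obtain ⟨p, hp⟩ := hD (fun i => D * w i) fun i => dvd_mul_right _ _
  let Y : FreeAlgebra ℤ (Gen N) := Polynomial.aeval (FreeAlgebra.ι ℤ (Sum.inr q)) p
  have h6 := hk (FreeAlgebra.ι ℤ (Sum.inr ℓ) + 1 - 4 * Y) fun i hi => by
    rw [map_sub, map_add, map_mul, map_one, map_ofNat, ← Polynomial.aeval_algHom_apply,
      FreeAlgebra.lift_ι_apply, FreeAlgebra.lift_ι_apply, gHk, gHk]
    beta_reduce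
    rw [dia_one _ q hq, dia_neg _ ℓ h1, ← Algebra.algebraMap_eq_smul_one,
      ← Algebra.algebraMap_eq_smul_one, Algebra.smul_def, ← map_mul]
    have e1 : ((q.1 : ℂ) ^ i) = algebraMap ℤ ℂ ((q.1 : ℤ) ^ i) := by simp
    rw [e1, ← IsScalarTower.algebraMap_apply, Polynomial.aeval_algebraMap_apply_eq_algebraMap_eval,
      hp i hi, IsScalarTower.algebraMap_apply ℤ ℂ]
    have e2 := congrArg (fun z : ℤ => (z : ℂ)) (hw i)
    push_cast at e2
    rw [neg_pow] at e2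
    have e3 : (ℓ.1 : ℂ) ^ i * (-1) ^ (i + 1) + 1 - 4 * algebraMap ℤ ℂ (D * w i) = 0 := by
      rw [pow_succ, eq_intCast]
      push_cast
      linear_combination e2
    have e4 := congrArg (algebraMap ℂ (Module.End ℂ (MF N (i + 1)))) e3
    rwa [map_sub, map_add, map_mul _ 4, map_one, map_ofNat, map_zero] at e4
  rw [map_sub, map_add, map_mul, map_one, map_ofNat, FreeAlgebra.lift_ι_apply] at h6
  have h7 : ‖(4 : E) * FreeAlgebra.lift ℤ a Y‖ < 2⁻¹ := by
    rw [norm_mul, show (4 : E) = 2 * 2 by norm_num, norm_mul, norm_two_E]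
    have := norm_lift_le a ha Y
    nlinarith [norm_nonneg (FreeAlgebra.lift ℤ a Y)]
  rw [show a (Sum.inr ℓ) + 1 = (a (Sum.inr ℓ) + 1 - 4 * FreeAlgebra.lift ℤ a Y) +
    4 * FreeAlgebra.lift ℤ a Y by ring]
  exact (IsUltrametricDist.norm_add_le_max _ _).trans_lt (max_lt h6 h7)

/-- the determinant as a character -/
def detc {E : Type} [Field E] (r : GQ →* GL (Fin 2) E) : GQ →* Eˣ :=
  Matrix.GeneralLinearGroup.det.comp r

theorem detc_coe {E : Type} [Field E] (r : GQ →* GL (Fin 2) E) (g : GQ) :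
    ((detc r g : Eˣ) : E) = (r g : Matrix (Fin 2) (Fin 2) E).det := rfl

theorem detc_cont {E : Type} [NontriviallyNormedField E] {r : GQ →* GL (Fin 2) E}
    (hc : Continuous r) : Continuous (detc r) := by
  rw [Units.isEmbedding_val₀.continuous_iff]
  exact (Units.continuous_val.comp hc).matrix_det

/-- **what occurs is odd** -/
theorem odd_of_occurs [FiniteDimensional ℚ_[2] E] {N : ℕ} [NeZero N] {r : GQ →* GL (Fin 2) E}
    (hc : Continuous r) (h : St.Occurs N r) : OddRep r := by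
  haveI : IsUltrametricDist E := IsUltrametricDist.of_normedAlgebra ℚ_[2]
  intro c hcc
  choose φ hφ using fun l : PA N => H20.exists_isFrob l.2.1
  obtain ⟨M, M0, hM⟩ := lim_neg (norm_of_st h φ hφ) (limR_of_st h φ hφ)
  obtain ⟨m, hm, -, hl⟩ := kw C.GCHF (detc r) (detc_cont hc) (2 * N).primeFactors
    (fun p hp hpS P hP hpP g hg => by
      have hu : UnrAt r p := h.1 ⟨p, hp, fun hd => hpS (Nat.mem_primeFactors.2
        ⟨hp, hd, by have := NeZero.ne N; omega⟩)⟩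
      change Matrix.GeneralLinearGroup.det (r g) = 1
      rw [hu P hP hpP g hg, map_one])
  obtain ⟨s, hs⟩ := hl 2⁻¹ (by norm_num)
  haveI : NeZero (2 ^ s * m) := ⟨by have := hm.pos; positivity⟩
  haveI : NeZero (2 ^ s * m * M) := ⟨by have := hm.pos; positivity⟩
  obtain ⟨ℓ, hℓ⟩ := ex_prime N (2 ^ s * m * M) (NeZero.ne N) (-1) isUnit_one.neg
  have h1 := hM ℓ (cast_of (dvd_mul_left _ _) hℓ)
  have h2 : (ℓ.1 : ZMod (2 ^ s * m)) = -1 := cast_of (dvd_mul_right _ _) hℓ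
  have h3 : ¬ ℓ.1 ∣ 2 ^ s * m := fun hd => by
    have h4 := cast_of hd h2
    rw [ZMod.natCast_self, eq_comm, neg_eq_zero] at h4
    haveI := Fact.mk ℓ.2.1
    exact one_ne_zero h4
  have h4 := hs (2 ^ s * m) rfl (φ ℓ * c) (Units.ext (by
    rw [map_mul, Units.val_mul, cyc_frob ℓ.2.1 h3 (hφ ℓ), cyc_conj hcc, h2]
    simp))
  rw [map_mul, Units.val_mul, detc_coe, detc_coe] at h4
  change ‖(r (φ ℓ) : Matrix (Fin 2) (Fin 2) E).det + 1‖ < 2⁻¹ at h1
  have h5 : (r c : Matrix (Fin 2) (Fin 2) E).det ^ 2 = 1 := by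
    rw [← detc_coe, ← Units.val_pow_eq_pow_val, ← map_pow, sq, H20.conj_sq hcc, map_one,
      Units.val_one]
  refine (sq_eq_one_iff.1 h5).resolve_left fun h6 => ?_
  rw [h6, mul_one] at h4
  have h7 : ‖(2 : E)‖ < 2⁻¹ := by
    rw [show (2 : E) = ((r (φ ℓ) : Matrix (Fin 2) (Fin 2) E).det + 1) +
      -((r (φ ℓ) : Matrix (Fin 2) (Fin 2) E).det - 1) by ring]
    exact (IsUltrametricDist.norm_add_le_max _ _).trans_lt (max_lt h1 (by rwa [norm_neg]))
  rw [norm_two_E] at h7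
  exact lt_irrefl _ h7

end

end Vale.Agent.N022
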