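import Vale.Agent.N022.Defs
import Vale.Agent.N022.Odd

/-!
# N022: the inverse limit of the statement and the inverse limit of the proof
-/

set_option linter.all false

open scoped TensorProduct Topology
open CategoryTheory Limits Filter

noncomputable section

namespace Vale.Agent.N022.D

open Vale.Agent.P022

/-! ### adic topologies -/

theorem adic_mem {R M : Type} [CommRing R] [AddCommGroup M] [Module R M] (I : Ideal R) (n : ℕ)
    (x : M) : {y | y - x ∈ I ^ n • (⊤ : Submodule R M)} ∈ @nhds M (I.adicModuleTopology M) x := by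
  have h := (@ModuleFilterBasis.toAddGroupFilterBasis R M _ I.adic_basis.topology _ _
    (I.ringFilterBasis.moduleFilterBasis (I.adic_module_basis M))).nhds_hasBasis x
  refine h.mem_iff.2 ⟨(I ^ n • (⊤ : Submodule R M) : Submodule R M), ⟨n, rfl⟩, ?_⟩
  rintro _ ⟨y, hy, rfl⟩
  rw [Set.mem_setOf_eq, add_sub_cancel_left]
  exact hy

theorem two_smul_ex {M : Type} [AddCommGroup M] [Module ℤ_[2] M] (n : ℕ) {x : M}
    (h : x ∈ (Ideal.span {(2 : ℤ_[2])}) ^ n • (⊤ : Submodule ℤ_[2] M)) :
    ∃ y : M, x = (2 ^ n : ℕ) • y := by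
  rw [Ideal.span_singleton_pow, Submodule.ideal_span_singleton_smul,
    Submodule.mem_smul_pointwise_iff_exists] at h
  obtain ⟨y, -, rfl⟩ := h
  refine ⟨y, ?_⟩
  rw [← Nat.cast_smul_eq_nsmul ℤ_[2]]
  push_cast
  rfl

section

variable (F : ℕᵒᵖ ⥤ AlgCat.{0} ℤ_[2])

/-- the topology of the limit -/
@[instance_reducible]
def top : TopologicalSpace (limit F :) :=
  ⨅ k, ((Ideal.span {(2 : ℤ_[2])}).adicModuleTopology (F.obj ⟨k⟩)).induced (pr F k)

/-- the component as an algebra map -/
def prH (k : ℕ) : (limit F :) →ₐ[ℤ_[2]] F.obj ⟨k⟩ := (limit.π F ⟨k⟩).hom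

theorem pr_ext {x y : (limit F :)} (h : ∀ k, pr F k x = pr F k y) : x = y :=
  Concrete.limit_ext F x y fun j => h j.unop

theorem pr_w {k k' : ℕ} (h : k ≤ k') (x : (limit F :)) :
    (F.map (homOfLE h).op).hom (pr F k' x) = pr F k x := by
  have e := limit.w F (homOfLE h).op
  exact congrArg (fun φ : limit F ⟶ F.obj ⟨k⟩ => φ.hom x) e

theorem cont_of {E : Type} [NormedAddCommGroup E] (lam : (limit F :) →+ E)
    (h : ∀ ε : ℝ, 0 < ε → ∃ k n : ℕ, ∀ x, (∃ y, pr F k x = (2 ^ n : ℕ) • y) → ‖lam x‖ < ε) :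
    Continuous[top F, _] lam := by
  letI := top F
  rw [continuous_iff_continuousAt]
  intro x
  rw [ContinuousAt, Metric.tendsto_nhds]
  intro ε hε
  obtain ⟨k, n, hk⟩ := h ε hε
  have h1 : pr F k ⁻¹' {y | y - pr F k x ∈ (Ideal.span {(2 : ℤ_[2])}) ^ n •
      (⊤ : Submodule ℤ_[2] (F.obj ⟨k⟩))} ∈ 𝓝 x := by
    refine nhds_mono (iInf_le _ k) ?_
    rw [@nhds_induced _ _ ((Ideal.span {(2 : ℤ_[2])}).adicModuleTopology (F.obj ⟨k⟩))]
    exact preimage_mem_comap (adic_mem _ n _)
  filter_upwards [h1] with y hy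
  rw [dist_eq_norm, ← map_sub]
  refine hk _ (two_smul_ex n ?_)
  have e : pr F k (y - x) = pr F k y - pr F k x := map_sub (prH F k) y x
  rw [e]
  exact hy

theorem of_cont {E : Type} [NormedAddCommGroup E] (lam : (limit F :) → E) (h0 : lam 0 = 0)
    (h : Continuous[top F, _] lam) (ε : ℝ) (hε : 0 < ε) :
    ∃ k : ℕ, ∀ x, pr F k x = 0 → ‖lam x‖ < ε := by
  letI := top F
  have h1 : {x | ‖lam x‖ < ε} ∈ 𝓝 (0 : (limit F :)) := by
    have h2 := Metric.tendsto_nhds.1 (h.continuousAt (x := 0)) ε hε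
    simp only [h0, dist_zero_right] at h2
    exact h2
  have h2 : (⨅ k, 𝓟 {x : (limit F :) | pr F k x = 0}) ≤ 𝓝 0 := by
    refine le_trans (iInf_mono fun k => ?_) (nhds_iInf).ge
    rw [@nhds_induced _ _ ((Ideal.span {(2 : ℤ_[2])}).adicModuleTopology (F.obj ⟨k⟩))]
    intro U hU
    obtain ⟨U', hU', hs⟩ := hU
    refine fun x hx => hs ?_
    have e : pr F k x = pr F k 0 := (hx : pr F k x = 0).trans (map_zero (prH F k)).symm
    rw [Set.mem_preimage, e]
    exact @mem_of_mem_nhds _ ((Ideal.span {(2 : ℤ_[2])}).adicModuleTopology (F.obj ⟨k⟩)) _ _ hU'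
  have h3 := h2 h1
  rw [mem_iInf_of_directed] at h3
  · exact h3
  · refine directed_of_isDirected_le fun k k' hk => principal_mono.2 fun x hx => ?_
    change pr F k x = 0
    rw [← pr_w F hk, (hx : pr F k' x = 0), map_zero]

end

section

variable {V : ℕ → RingCat.{0}} {S : Type} (g : S → ∀ i, V i)

/-- the ring at level `k` -/
abbrev A (k : ℕ) : Type := Sub (cut V k '' Set.range g)

/-- the generators at level `k` -/
def ga (k : ℕ) (s : S) : A g k :=
  (⟨cut V k (g s), Subring.subset_closure ⟨g s, ⟨s, rfl⟩, rfl⟩⟩ :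
    Subring.closure (cut V k '' Set.range g))

theorem mem_HA (k : ℕ) (x : W V k) (hx : x ∈ Subring.closure (cut V k '' Set.range g)) :
    (x : EW (fun i => V i) k) ∈ HA g k := by
  have h1 : Subring.closure (cut V k '' Set.range g) ≤ (HA g k).toSubring := by
    refine Subring.closure_le.2 ?_
    rintro _ ⟨_, ⟨s, rfl⟩, rfl⟩
    exact Algebra.subset_adjoin ⟨s, rfl⟩
  exact h1 hx

/-- the inclusion in the ring of the proof -/
def jA (k : ℕ) : A g k →+* HA g k where
  toFun x := ⟨val x, mem_HA g k _ (Subtype.property x)⟩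
  map_one' := rfl
  map_mul' _ _ := rfl
  map_zero' := rfl
  map_add' _ _ := rfl

theorem res_mem {k k' : ℕ} (h : k ≤ k') (x : W V k')
    (hx : x ∈ Subring.closure (cut V k' '' Set.range g)) :
    (resW (V := fun i => V i) h x : W V k) ∈ Subring.closure (cut V k '' Set.range g) := by
  have h1 : Subring.closure (cut V k' '' Set.range g) ≤
      (Subring.closure (cut V k '' Set.range g)).comap
        ((resW (V := fun i => V i) h).toRingHom : W V k' →+* W V k) := by
    refine Subring.closure_le.2 ?_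
    rintro _ ⟨_, ⟨s, rfl⟩, rfl⟩
    exact Subring.subset_closure ⟨g s, ⟨s, rfl⟩, rfl⟩
  exact h1 hx

/-- the transition maps -/
def rho (k k' : ℕ) (h : k ≤ k') : A g k' →+* A g k where
  toFun x := (⟨resW (V := fun i => V i) h (val x), res_mem g h _ (Subtype.property x)⟩ :
    Subring.closure (cut V k '' Set.range g))
  map_one' := rfl
  map_mul' _ _ := rfl
  map_zero' := rfl
  map_add' _ _ := rfl

/-- the operator in weight `i + 1` -/
def evA (k : ℕ) (i : Fin k) : A g k →+* V i where
  toFun x := val x i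
  map_one' := rfl
  map_mul' _ _ := rfl
  map_zero' := rfl
  map_add' _ _ := rfl

/-- `t ↦ 1 ⊗ t` -/
def tzH (B : RingCat.{0}) : B →+* Z B :=
  (Algebra.TensorProduct.includeRight (R := ℤ) (A := ℤ_[2]) (B := B)).toRingHom

theorem Tw_succ (G : Set (∀ i, V i)) (k : ℕ) :
    (Tw G).map (homOfLE (Nat.le_add_right k 1)).op = zm (sm (res V k) (cut V (k + 1)) G) :=
  Functor.ofOpSequence_map_homOfLE_succ _ k

theorem Tw_map {k k' : ℕ} (h : k ≤ k') (x : ℤ_[2] ⊗[ℤ] A g k') :
    ((Tw (Set.range g)).map (homOfLE h).op).hom x = St.Gen.rZ (rho g) k k' h x := by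
  induction k', h using Nat.le_induction with
  | base =>
    have e : (Tw (Set.range g)).map (homOfLE (le_refl k)).op = 𝟙 _ := (Tw (Set.range g)).map_id _
    rw [e]
    change x = _
    induction x using TensorProduct.induction_on with
    | zero => rw [map_zero]
    | tmul z t => rw [St.Gen.rZ_tmul]; rfl
    | add x y hx hy => rw [map_add, ← hx, ← hy]
  | succ k' h ih =>
    have e : (Tw (Set.range g)).map (homOfLE (Nat.le_succ_of_le h)).op =
        (Tw (Set.range g)).map (homOfLE (Nat.le_add_right k' 1)).op ≫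
          (Tw (Set.range g)).map (homOfLE h).op := by
      rw [← Functor.map_comp]
      rfl
    rw [e, Tw_succ]
    change ((Tw (Set.range g)).map (homOfLE h).op).hom
      ((zm (sm (res V k') (cut V (k' + 1)) (Set.range g))).hom x) = _
    refine (ih _).trans ?_
    induction x using TensorProduct.induction_on with
    | zero =>
      have e0 : (zm (sm (res V k') (cut V (k' + 1)) (Set.range g))).hom 0 = 0 := map_zero _
      exact (congrArg _ e0).trans ((map_zero _).trans (map_zero _).symm)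
    | tmul z t => rfl
    | add x y hx hy =>
      have e0 : (zm (sm (res V k') (cut V (k' + 1)) (Set.range g))).hom (x + y) = _ :=
        map_add _ _ _
      exact (congrArg _ e0).trans ((map_add _ _ _).trans
        ((congrArg₂ (· + ·) hx hy).trans (map_add _ _ _).symm))

/-- the cone of the free algebra -/
def cn : Cone (Tw (Set.range g)) where
  pt := AlgCat.of ℤ_[2] (FreeAlgebra ℤ_[2] S)
  π := NatTrans.ofOpSequence
    (fun k => AlgCat.ofHom (FreeAlgebra.lift ℤ_[2] fun s => (tz (ga g k s) : Z _)))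
    fun k => by
      rw [Tw_succ]
      refine AlgCat.hom_ext _ (FreeAlgebra.hom_ext (funext fun s => ?_))
      change FreeAlgebra.lift ℤ_[2] (fun s => (tz (ga g k s) : Z _)) (FreeAlgebra.ι _ s) =
        (zm (sm (res V k) (cut V (k + 1)) (Set.range g))).hom
          (FreeAlgebra.lift ℤ_[2] (fun s => (tz (ga g (k + 1) s) : Z _)) (FreeAlgebra.ι _ s))
      rw [FreeAlgebra.lift_ι_apply, FreeAlgebra.lift_ι_apply]
      rfl

/-- the generators in the limit -/
def gl (s : S) : (limit (Tw (Set.range g)) :) :=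
  (limit.lift _ (cn g)).hom (FreeAlgebra.ι ℤ_[2] s)

theorem pr_gl (k : ℕ) (s : S) : pr (Tw (Set.range g)) k (gl g s) = tz (ga g k s) := by
  have e := congrArg (fun φ : (cn g).pt ⟶ (Tw (Set.range g)).obj ⟨k⟩ =>
    φ.hom (FreeAlgebra.ι ℤ_[2] s)) (limit.lift_π (cn g) ⟨k⟩)
  exact e.trans (FreeAlgebra.lift_ι_apply (fun s => (tz (ga g k s) : Z _)) s)

/-- from the limit of the statement to the compatible families -/
def toG : (limit (Tw (Set.range g)) :) →+* St.Gen.G2 (rho g) where
  toFun x := ⟨fun k => pr (Tw (Set.range g)) k x, fun k k' h =>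
    (Tw_map g h _).symm.trans (pr_w _ h x)⟩
  map_one' := Subtype.ext (funext fun k => map_one (prH _ k))
  map_mul' x y := Subtype.ext (funext fun k => map_mul (prH _ k) x y)
  map_zero' := Subtype.ext (funext fun k => map_zero (prH _ k))
  map_add' x y := Subtype.ext (funext fun k => map_add (prH _ k) x y)

variable {E : Type} [NontriviallyNormedField E] [NormedAlgebra ℚ_[2] E] [Algebra ℤ_[2] E]
  [IsScalarTower ℤ_[2] ℚ_[2] E]

/-- from the proof to the statement -/
theorem hom_of (hi : ∀ x : E, ‖x‖ ≤ 1 → IsIntegral ℤ_[2] x) (c : ContHom g E) :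
    ∃ lam : (limit (Tw (Set.range g)) :) → integralClosure ℤ_[2] E, Hom (Tw (Set.range g)) lam ∧
      ∀ s, (lam (gl g s)).1 = c.val s := by
  obtain ⟨l, h1, h2, h3, h4⟩ := St.Gen.gen (rho g) g (jA g) (fun _ _ _ _ => rfl) c
  let f : (limit (Tw (Set.range g)) :) →ₐ[ℤ_[2]] E :=
    { l.comp (toG g) with
      commutes' := fun z => by
        rw [IsScalarTower.algebraMap_apply ℤ_[2] ℚ_[2] E]
        exact h1 z _ fun k => (prH _ k).commutes z }
  refine ⟨f.codRestrict (integralClosure ℤ_[2] E) fun x => hi _ (h2 _), ⟨⟨_, rfl⟩, ?_⟩,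
    fun s => h4 s (fun k => ga g k s) (fun k => rfl) _ fun k => pr_gl g k s⟩
  letI := top (Tw (Set.range g))
  refine continuous_induced_rng.2 (cont_of _ f.toRingHom.toAddMonoidHom fun ε hε => ?_)
  obtain ⟨k, n, h⟩ := h3 ε hε
  exact ⟨k, n, fun x hx => h _ hx⟩

/-- from the statement to the proof -/
theorem lim_of {lam : (limit (Tw (Set.range g)) :) → integralClosure ℤ_[2] E}
    (h : Hom (Tw (Set.range g)) lam) (ε : ℝ) (hε : 0 < ε) : ∃ k : ℕ, ∀ X : FreeAlgebra ℤ S,
      (∀ i < k, FreeAlgebra.lift ℤ (fun s => g s i) X = 0) →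
        ‖FreeAlgebra.lift ℤ (fun s => (lam (gl g s)).1) X‖ < ε := by
  obtain ⟨⟨f, rfl⟩, hc⟩ := h
  letI := top (Tw (Set.range g))
  obtain ⟨k, hk⟩ := of_cont _ (fun x => (f x).1) (by rw [map_zero]; rfl)
    (continuous_subtype_val.comp hc) ε hε
  refine ⟨k, fun X hX => ?_⟩
  have e := lift_map ((integralClosure ℤ_[2] E).val.comp f).toRingHom (gl g) X
  refine (congrArg norm e.symm).trans_lt (hk _ ?_)
  have h1 : FreeAlgebra.lift ℤ (ga g k) X = 0 :=
    Subtype.ext (funext fun i => (lift_map (evA g k i) (ga g k) X).trans (hX i i.2))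
  have h4 := lift_map (prH (Tw (Set.range g)) k).toRingHom (gl g) X
  have h5 : (fun s => (prH (Tw (Set.range g)) k).toRingHom (gl g s)) =
      fun s => tzH _ (ga g k s) := funext fun s => pr_gl g k s
  rw [h5] at h4
  exact h4.trans ((lift_map (tzH _) (ga g k) X).symm.trans ((congrArg _ h1).trans (map_zero _)))

end

end Vale.Agent.N022.D
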