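import Vale.Agent.N022.Uni
import Vale.Agent.P022T.Inf
import Vale.Agent.P022T.Df
import Vale.Agent.P022T.Val
import Vale.Agent.P022T.ThH57
import Vale.Agent.P022T.Res

/-!
# N022: the theorem of Hermite and Minkowski, finiteness of the residual classes
-/

set_option linter.all false

open NumberField Matrix Polynomial

noncomputable section

namespace Vale.Agent.N022

open Vale.Agent.P022 Vale.Agent.P022T Vale.Agent.P022.H916

section

variable {K : Type} [Field K] [NumberField K]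

theorem step {P : Ideal (𝓞 K)} {θ : 𝓞 K} (hA : Ap P θ) {s : Ga K} (hs : In P s) {k : ℕ}
    (h : s • θ - θ ∈ P ^ (k + 1)) (a : ℕ) : ∀ y ∈ P ^ a, s • y - y ∈ P ^ (a + k) := by
  have h0 : ∀ x : 𝓞 K, s • x - x ∈ P ^ (k + 1) := fun x => by
    obtain ⟨g, hg⟩ := hA (k + 1) x
    have k1 := Df.in_pow hs _ _ hg
    have k2 : s • aeval θ g = aeval (s • θ) g :=
      (aeval_algHom_apply (MulSemiringAction.toRingHom (Ga K) (𝓞 K) s).toIntAlgHom θ g).symm
    have k3 : aeval (s • θ) g - aeval θ g ∈ P ^ (k + 1) := by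
      rw [aeval_def, aeval_def, eval₂_eq_eval_map, eval₂_eq_eval_map]
      exact Ideal.mem_of_dvd _ (sub_dvd_eval_sub _ _ _) h
    rw [smul_sub, k2] at k1
    convert Ideal.add_mem _ (Ideal.sub_mem _ k1 hg) k3 using 1
    ring
  induction a with
  | zero => exact fun y _ => Ideal.pow_le_pow_right (by omega) (h0 y)
  | succ a ih =>
    intro y hy
    rw [pow_succ] at hy
    refine Submodule.mul_induction_on hy (fun u hu v hv => ?_) fun u v hu hv => ?_
    · have e : s • (u * v) - u * v = (s • u - u) * (s • v) + u * (s • v - v) := by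
        rw [smul_mul']
        ring
      rw [e]
      refine Ideal.add_mem _ ?_ ?_
      · rw [show a + 1 + k = a + k + 1 by ring, pow_succ]
        exact Ideal.mul_mem_mul (ih u hu) (by simpa using Df.in_pow hs 1 v (by simpa using hv))
      · rw [show a + 1 + k = a + (k + 1) by ring, pow_add]
        exact Ideal.mul_mem_mul hu (h0 v)
    · convert Ideal.add_mem _ hu hv using 1
      rw [smul_add]
      ring

theorem ord_mem {P : Ideal (𝓞 K)} {θ : 𝓞 K} (hA : Ap P θ) {s : Ga K} (hs : In P s) {k : ℕ}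
    (h : s • θ - θ ∈ P ^ (k + 1)) (j : ℕ) :
    (s ^ j) • θ - θ - j * (s • θ - θ) ∈ P ^ (k + 1 + k) := by
  induction j with
  | zero => simp
  | succ j ih =>
    have h1 := Df.in_pow hs _ _ ih
    have h2 := Ideal.mul_mem_left _ (j : 𝓞 K) (step hA hs h _ _ h)
    have e : s • (j : 𝓞 K) = j := map_natCast (MulSemiringAction.toRingHom (Ga K) (𝓞 K) s) j
    convert Ideal.add_mem _ h1 h2 using 1
    rw [pow_succ', mul_smul, smul_sub, smul_sub, smul_mul', e]
    push_cast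
    ring

theorem disc_le [IsGalois ℚ K] {A B : ℕ} (hA : A ≠ 0) (hB : Module.finrank ℚ K ≤ B)
    (h : ∀ P : Ideal (𝓞 K), P.IsPrime → P ≠ ⊥ → ∀ s, In P s → s ≠ 1 →
      ∃ p : ℕ, (p : 𝓞 K) ∈ P ∧ Module.finrank ℚ K * p ∣ A) : (discr K).natAbs ≤ A ^ (B * B) := by
  classical
  have en : Nat.card (Ga K) = Module.finrank ℚ K := IsGalois.card_aut_eq_finrank ℚ K
  have hD : differentIdeal ℤ (𝓞 K) ≠ ⊥ := differentIdeal_ne_bot
  have a0 : (A : 𝓞 K) ≠ 0 := Nat.cast_ne_zero.2 hA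
  have n0 : ((Module.finrank ℚ K : ℕ) : 𝓞 K) ≠ 0 := Nat.cast_ne_zero.2 Module.finrank_pos.ne'
  have h2 : Ideal.span {(A : 𝓞 K)} ≠ ⊥ := by rwa [Ne, Ideal.span_singleton_eq_bot]
  have hd : differentIdeal ℤ (𝓞 K) ∣ Ideal.span {(A : 𝓞 K)} ^ B := by
    rw [UniqueFactorizationMonoid.dvd_iff_emultiplicity_le hD]
    intro P hP'
    have hP := Ideal.isPrime_of_prime hP'
    have h0 : P ≠ ⊥ := hP'.ne_zero
    obtain ⟨v1, v2, -, -⟩ := valC K P hP h0
    obtain ⟨θ, t1, t2⟩ := H57.thC K P hP h0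
    obtain ⟨n1, k⟩ := dfC valC K P hP h0 θ t1 t2
    have k2 : ∀ s ∈ I1 P, w P (s • θ - θ) ≤ w P (A : 𝓞 K) := fun s hs => by
      obtain ⟨-, s1, s2⟩ := Finset.mem_filter.1 hs
      obtain ⟨p, p1, c, rfl⟩ := h P hP h0 s s1 s2
      rcases hm : w P (s • θ - θ) with _ | m
      · exact Nat.zero_le _
      have := ord_mem t1 s1 ((v2 _ _ (n1 s s2)).1 hm.ge) (Module.finrank ℚ K)
      rw [← en, pow_card_eq_one', one_smul, sub_self, zero_sub, neg_mem_iff, en,
        ← v2 _ _ (mul_ne_zero n0 (n1 s s2)), v1 _ _ n0 (n1 s s2), hm] at this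
      rw [v2 _ _ a0, Nat.cast_mul, Nat.cast_mul, pow_succ]
      exact Ideal.mul_mem_right _ _ (Ideal.mul_mem_mul ((v2 _ _ n0).1 (by omega)) p1)
    have k3 := k.trans (Finset.sum_le_card_nsmul _ _ _ k2)
    have k4 : (I1 P).card ≤ B := by
      refine (Finset.card_le_univ _).trans ?_
      rwa [← Nat.card_eq_fintype_card, en]
    rw [emultiplicity_pow hP', (FiniteMultiplicity.of_prime_left hP' hD).emultiplicity_eq_multiplicity,
      (FiniteMultiplicity.of_prime_left hP' h2).emultiplicity_eq_multiplicity]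
    exact_mod_cast k3.trans (Nat.mul_le_mul_right _ k4)
  have hn := map_dvd Ideal.absNorm hd
  have e2 : Ideal.absNorm (Ideal.span {(A : 𝓞 K)}) = A ^ Module.finrank ℚ K := by
    have := Ideal.absNorm_span_natCast (S := 𝓞 K) A
    rwa [RingOfIntegers.rank] at this
  rw [map_pow, absNorm_differentIdeal K (𝓞 K), e2, ← pow_mul] at hn
  exact (Nat.le_of_dvd (by positivity) hn).trans
    (Nat.pow_le_pow_right (Nat.pos_of_ne_zero hA) (Nat.mul_le_mul_right _ hB))

end

/-- open normal subgroups of bounded index which are unramified outside `S` -/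
structure Sm (S : Finset ℕ) (B : ℕ) (U : Subgroup GQ) : Prop where
  nor : U.Normal
  opn : IsOpen (U : Set GQ)
  fin : Finite (GQ ⧸ U)
  idx : U.index ≤ B
  unr : ∀ p : ℕ, p.Prime → p ∉ S → ∀ P : Ideal (𝓞 Qb), P.IsPrime → (p : 𝓞 Qb) ∈ P →
    ∀ g : GQ, (∀ x : 𝓞 Qb, g • x - x ∈ P) → g ∈ U

theorem herm {S : Finset ℕ} (hS : ∀ p ∈ S, p ≠ 0) (B : ℕ) : {U | Sm S B U}.Finite := by
  refine Set.Finite.of_finite_image (f := fun U : Subgroup GQ => (U : Set GQ))
    (((finite_of_discr_bdd Qb ((B.factorial * ∏ p ∈ S, p) ^ (B * B))).image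
      fun F => {g : GQ | ∀ x ∈ F.1, g x = x}).subset ?_) SetLike.coe_injective.injOn
  rintro _ ⟨U, hU, rfl⟩
  let j : ℚ →+* Qb := algebraMap ℚ Qb
  have hall : ∀ g : GQ, g ∈ GK j := fun g x => g.commutes x
  obtain ⟨L, _, _, inst, hG, jL, σ, D, hL, hker⟩ :=
    exists_fld j U hU.opn (fun g _ => hall g) (fun g _ u hu => hU.nor.conj_mem u hu g)
  obtain rfl : inst = DivisionRing.toRatAlgebra := Subsingleton.elim _ _
  have hn : Module.finrank ℚ L ≤ B := by
    let σ' : GQ →* Ga L := σ.comp ((MonoidHom.id GQ).codRestrict _ hall)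
    have e : σ'.ker = U := Subgroup.ext fun g => hker ⟨g, hall g⟩
    have e2 : σ'.range = ⊤ := MonoidHom.range_eq_top.2 fun s => by
      obtain ⟨g, rfl⟩ := D.surj s
      exact ⟨g, rfl⟩
    have := hU.idx
    rwa [← e, Subgroup.index_ker, e2, Subgroup.card_top, IsGalois.card_aut_eq_finrank] at this
  have hd := disc_le (K := L) (A := B.factorial * ∏ p ∈ S, p)
    (mul_ne_zero B.factorial_ne_zero (Finset.prod_ne_zero_iff.2 hS)) hn fun P hP h0 s hs s1 => by
      obtain ⟨p, hp, hpP⟩ := inf_ex_prime P hP h0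
      refine ⟨p, hpP, mul_dvd_mul (Nat.dvd_factorial Module.finrank_pos hn)
        (Finset.dvd_prod_of_mem (fun p => p) ?_)⟩
      by_contra hpS
      obtain ⟨Q, hQ, rfl⟩ := exists_above jL P hP
      have hpQ : (p : 𝓞 Qb) ∈ Q := by
        have h1 : RingOfIntegers.mapRingHom jL (p : 𝓞 L) ∈ Q := hpP
        rwa [map_natCast] at h1
      exact s1 (D.inertia_eq_bot hQ (fun g hg => (hker g).2 (hU.unr p hp hpS Q hQ hpQ g hg)) hs)
  let e := AlgEquiv.ofInjectiveField jL.toRatAlgHom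
  refine ⟨⟨jL.toRatAlgHom.fieldRange, e.toLinearEquiv.finiteDimensional⟩, ?_, ?_⟩
  · haveI : NumberField jL.toRatAlgHom.fieldRange :=
      @NumberField.mk _ _ inferInstance e.toLinearEquiv.finiteDimensional
    change |discr jL.toRatAlgHom.fieldRange| ≤ _
    rw [← discr_eq_discr_of_algEquiv L e, Int.abs_eq_natAbs]
    exact_mod_cast hd
  · ext g
    rw [← hL]
    exact ⟨fun h x => h _ ⟨x, rfl⟩, fun h _ ⟨x, e⟩ => e ▸ h x⟩

section

variable {k : Type} [Field k]

theorem tr_comm (ρ : GQ →* GL (Fin 2) k) (g h : GQ) :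
    (ρ (g * h)).1.trace = (ρ (h * g)).1.trace := by
  rw [map_mul, map_mul, Units.val_mul, Units.val_mul, trace_mul_comm]

theorem det_mul' (ρ : GQ →* GL (Fin 2) k) (g h : GQ) :
    (ρ (g * h)).1.det = (ρ g).1.det * (ρ h).1.det := by
  rw [map_mul, Units.val_mul, det_mul]

/-- the elements which traces and determinants do not see -/
def Ut (ρ : GQ →* GL (Fin 2) k) : Subgroup GQ where
  carrier := {g | (∀ h, (ρ (g * h)).1.trace = (ρ h).1.trace) ∧ (ρ g).1.det = 1}
  mul_mem' {a b} ha hb := ⟨fun h => by rw [mul_assoc, ha.1, hb.1],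
    by rw [det_mul', ha.2, hb.2, one_mul]⟩
  one_mem' := ⟨fun h => by rw [one_mul], by simp⟩
  inv_mem' {a} ha := ⟨fun h => by rw [← ha.1, mul_inv_cancel_left], by
    have := det_mul' ρ a a⁻¹
    rw [ha.2, one_mul, mul_inv_cancel, map_one, Units.val_one, det_one] at this
    exact this.symm⟩

theorem ker_le (ρ : GQ →* GL (Fin 2) k) {g : GQ} (h : ρ g = 1) : g ∈ Ut ρ :=
  ⟨fun k => by rw [map_mul, h, one_mul], by rw [h, Units.val_one, det_one]⟩

theorem sm_Ut {ρ : GQ →* GL (Fin 2) k} {S : Finset ℕ} {F : Set k} (hF : F.Finite)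
    (ho : IsOpen {g | ρ g = 1}) (hu : ∀ p : ℕ, p.Prime → p ∉ S → UnrAt ρ p)
    (h : ∀ y, td ρ y ∈ F) : Sm S (Nat.card F ^ 5) (Ut ρ) := by
  haveI := hF.to_subtype
  haveI : Nonempty F := ⟨⟨_, h (Sum.inl 1)⟩⟩
  obtain ⟨f, f1, f2, -⟩ := Submodule.exists_fun_fin_finrank_span_eq k
    (Set.range fun g => (ρ g : Matrix (Fin 2) (Fin 2) k))
  have hm := Submodule.finrank_le (Submodule.span k
    (Set.range fun g => (ρ g : Matrix (Fin 2) (Fin 2) k)))
  rw [Module.finrank_matrix, Fintype.card_fin, Module.finrank_self] at hm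
  generalize Module.finrank k (Submodule.span k
    (Set.range fun g => (ρ g : Matrix (Fin 2) (Fin 2) k))) = m at f f1 f2 hm
  choose γ hγ using f1
  let Φ : GQ ⧸ Ut ρ → (Fin m → F) × F := fun x =>
    (fun i => ⟨_, h (Sum.inl (x.out * γ i))⟩, ⟨_, h (Sum.inr x.out)⟩)
  have inj : Function.Injective Φ := fun x y e => by
    have e1 : ∀ i, (ρ (x.out * γ i)).1.trace = (ρ (y.out * γ i)).1.trace := fun i =>
      congrArg Subtype.val (congrFun (congrArg Prod.fst e) i)
    have e2 : (ρ x.out).1.det = (ρ y.out).1.det := congrArg Subtype.val (congrArg Prod.snd e)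
    have e3 : ∀ g, (ρ (x.out * g)).1.trace = (ρ (y.out * g)).1.trace := fun g => by
      let L := (traceLinearMap (Fin 2) k k).comp (LinearMap.mulLeft k ((ρ x.out).1 - (ρ y.out).1))
      have hL : ∀ g, L (ρ g).1 = (ρ (x.out * g)).1.trace - (ρ (y.out * g)).1.trace := fun g => by
        simp [L, sub_mul]
      have : Submodule.span k (Set.range f) ≤ LinearMap.ker L := Submodule.span_le.2 (by
        rintro _ ⟨i, rfl⟩
        rw [← hγ, SetLike.mem_coe, LinearMap.mem_ker, hL, e1, sub_self])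
      rw [f2] at this
      exact sub_eq_zero.1 ((hL g).symm.trans (this (Submodule.subset_span ⟨g, rfl⟩)))
    rw [← x.out_eq, ← y.out_eq]
    refine QuotientGroup.eq.2 ⟨fun g => ?_, ?_⟩
    · rw [mul_assoc, tr_comm, mul_assoc, ← e3, ← mul_assoc, tr_comm, inv_mul_cancel_left]
    · rw [det_mul', ← e2, ← det_mul', inv_mul_cancel, map_one, Units.val_one, det_one]
  refine ⟨⟨fun u hu g => ⟨fun a => ?_, ?_⟩⟩, Subgroup.isOpen_mono (H₁ := ρ.ker)
    (fun g hg => ker_le ρ hg) ho, Finite.of_injective Φ inj, ?_,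
    fun p hp hS P hP hpP g hg => ker_le ρ (hu p hp hS P hP hpP g hg)⟩
  · rw [mul_assoc, mul_assoc, tr_comm, mul_assoc, hu.1, tr_comm, mul_inv_cancel_left]
  · rw [det_mul', det_mul', hu.2, mul_one, ← det_mul', mul_inv_cancel, map_one, Units.val_one,
      det_one]
  · refine (Nat.card_le_card_of_injective Φ inj).trans ?_
    rw [Nat.card_prod, Nat.card_fun, Nat.card_fin, ← pow_succ]
    exact Nat.pow_le_pow_right Nat.card_pos (by omega)

theorem fin_td {S : Finset ℕ} (hS : ∀ p ∈ S, p ≠ 0) {F : Set k} (hF : F.Finite) :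
    {c | ∃ ρ : GQ →* GL (Fin 2) k, c = td ρ ∧ IsOpen {g | ρ g = 1} ∧
      (∀ p : ℕ, p.Prime → p ∉ S → UnrAt ρ p) ∧ ∀ y, td ρ y ∈ F}.Finite := by
  haveI := hF.to_subtype
  refine ((herm hS (Nat.card F ^ 5)).biUnion (t := fun U => Set.range
    fun (c : (GQ ⧸ U) ⊕ (GQ ⧸ U) → F) (y : GQ ⊕ GQ) =>
      (c (Sum.map QuotientGroup.mk QuotientGroup.mk y) : k)) fun U hU => ?_).subset ?_
  · haveI := hU.fin
    exact Set.finite_range _
  · rintro _ ⟨ρ, rfl, ho, hu, h⟩
    refine Set.mem_biUnion (sm_Ut hF ho hu h)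
      ⟨fun x => ⟨_, h (Sum.map Quotient.out Quotient.out x)⟩, funext ?_⟩
    rintro (g | g)
    · obtain ⟨u, e⟩ := QuotientGroup.mk_out_eq_mul (Ut ρ) g
      change (ρ (QuotientGroup.mk g : GQ ⧸ Ut ρ).out).1.trace = (ρ g).1.trace
      rw [e, tr_comm, u.2.1]
    · obtain ⟨u, e⟩ := QuotientGroup.mk_out_eq_mul (Ut ρ) g
      change (ρ (QuotientGroup.mk g : GQ ⧸ Ut ρ).out).1.det = (ρ g).1.det
      rw [e, det_mul', u.2.2, mul_one]

end

/-- **finitely many residual classes** -/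
theorem fin_kr {S : Finset ℕ} (hS : OddS S) {q : ℕ} (hq : 1 < q) :
    ∃ C : Set (Set (FreeAlgebra ℤ (GQ ⊕ GQ))), C.Finite ∧ ∀ (E : Type) [NontriviallyNormedField E]
      [NormedAlgebra ℚ_[2] E] [FiniteDimensional ℚ_[2] E] (r : GQ →* GL (Fin 2) E),
      Continuous r → UnrS S r → (∀ y, ‖td r y ^ q - td r y‖ < 1) → kr r ∈ C := by
  classical
  obtain ⟨K, _, _, _, _, -⟩ : ∃ (K : Type) (_ : Field K) (_ : IsAlgClosed K)
      (_ : Algebra (ZMod 2) K) (_ : CharP K 2), True := ⟨AlgebraicClosure (ZMod 2),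
    inferInstance, inferInstance, inferInstance, inferInstance, trivial⟩
  have hF : {x : K | x ^ q = x}.Finite :=
    (X ^ q - X : K[X]).roots.toFinset.finite_toSet.subset fun x hx => by
      rw [Finset.mem_coe, Multiset.mem_toFinset, mem_roots (FiniteField.X_pow_card_sub_X_ne_zero K hq)]
      simpa [sub_eq_zero] using hx
  refine ⟨_, (fin_td (S := insert 2 S) (fun p hp => ?_) hF).image
    fun c => {Y | FreeAlgebra.lift ℤ c Y = 0}, fun E _ _ _ r hc hu h => ?_⟩
  · rcases Finset.mem_insert.1 hp with rfl | hp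
    · norm_num
    · exact (hS p hp).1.ne_zero
  obtain ⟨k, _, _, _, ρ, ⟨O, π, hO, ht⟩, ho, h1⟩ := resC E r hc
  letI := ZMod.algebra k 2
  let ι : k →+* K := (IsAlgClosed.lift : k →ₐ[ZMod 2] K).toRingHom
  let ρ' : GQ →* GL (Fin 2) K := (Matrix.GeneralLinearGroup.map ι).comp ρ
  have h2 : ∀ g, ρ g = 1 → ρ' g = 1 := fun g hg => by
    rw [MonoidHom.comp_apply, hg, map_one]
  obtain ⟨a, a1, a2⟩ : ∃ a : GQ ⊕ GQ → O, (∀ y, O.subtype (a y) = td r y) ∧
      ∀ y, (ι.comp π) (a y) = td ρ' y := by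
    choose t d b1 b2 b3 b4 using ht
    refine ⟨Sum.elim t d, ?_, ?_⟩
    · rintro (g | g)
      · exact b1 g
      · exact b2 g
    · rintro (g | g)
      · exact (congrArg ι (b3 g)).trans (AddMonoidHom.map_trace ι.toAddMonoidHom _)
      · exact (congrArg ι (b4 g)).trans (ι.map_det _)
  have e : ∀ x : O, (ι.comp π) x = 0 ↔ ‖O.subtype x‖ < 1 := fun x =>
    ⟨P022E.Br.small_of O hO _ x, H315.Sv.pi_small O hO _ x⟩
  refine ⟨_, ⟨ρ', rfl, Subgroup.isOpen_mono (H₁ := ρ.ker) (H₂ := ρ'.ker) h2 ho,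
    fun p hp hn P hP hpP g hg => h2 g (h1 g (hu p hp (fun h => hn (by simp [h]))
      (fun h => hn (by simp [h])) P hP hpP g hg)), fun y => ?_⟩, Set.ext fun Y => ?_⟩
  · change _ ^ q = _
    rw [← a2, ← map_pow, ← sub_eq_zero, ← map_sub, e, map_sub, map_pow, a1]
    exact h y
  · change FreeAlgebra.lift ℤ (td ρ') Y = 0 ↔ ‖FreeAlgebra.lift ℤ (td r) Y‖ < 1
    rw [← funext a1, ← funext a2, ← lift_map, ← lift_map, e]

end Vale.Agent.N022
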