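import Vale.Agent.N022.BrL
import Vale.Agent.N022.Herm
import Vale.Agent.P022.H220.SerT

/-!
# N022: the words of the statement and the words of the proof
-/

set_option linter.all false

open scoped MatrixGroups ModularForm NumberField Topology
open UpperHalfPlane CongruenceSubgroup Matrix CategoryTheory Limits

noncomputable section

namespace Vale.Agent.N022.D

open Vale.Agent.P022 Vale.Agent.P022D.Top

/-! ### operators -/

section

variable {N : ℕ} [NeZero N]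

theorem tFun_apply (ℓ : PA N) (i : ℕ) (f : ℍ → ℂ) (z : ℍ) : tFun N (i + 1) ℓ f z =
    (∑ j ∈ Finset.range ℓ.1, f (ofComplex ((z + j) / ℓ.1))) / ℓ.1 +
      ℓ.1 ^ i * dFun N (i + 1) ℓ f (ofComplex (ℓ.1 * z)) := by
  have h0 : (0 : ℚ) < ℓ.1 := by exact_mod_cast ℓ.2.1.pos
  rw [tFun, Pi.add_apply, Finset.sum_apply, Finset.sum_range, Finset.sum_div]
  congr 1
  · refine Finset.sum_congr rfl fun j _ => ?_
    obtain ⟨τ, h1, h2⟩ := H220.slash_tri (f := f) (a := 1) (b := (j : ℕ)) (d := ℓ.1)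
      (by simpa using ℓ.2.1.ne_zero) one_pos h0 i z
    refine h2.trans ?_
    push_cast at h1
    rw [one_mul] at h1
    rw [← h1, ofComplex_apply]
    push_cast
    ring
  · obtain ⟨τ, h1, h2⟩ := H220.slash_tri (f := dFun N (i + 1) ℓ f) (a := ℓ.1) (b := 0) (d := 1)
      (by simpa using ℓ.2.1.ne_zero) h0 one_pos i z
    refine h2.trans ?_
    push_cast at h1
    rw [add_zero, div_one] at h1
    rw [← h1, ofComplex_apply]
    push_cast
    ring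

theorem isT_iff (ℓ : PA N) (i : ℕ) (T : Module.End ℂ (MF N (i + 1))) :
    IsT N ℓ.1 i T ↔ T = gHk N (Sum.inl ℓ) i := by
  have key : IsT N ℓ.1 i (gHk N (Sum.inl ℓ) i) := ⟨fun γ h1 h2 f z => by
    change (H783.Tl (i + 1) ℓ f : ℍ → ℂ) z = _
    rw [H783.Tl_coe, tFun_apply, H783.dFun_eq ℓ h1 h2]⟩
  refine ⟨fun h => LinearMap.ext fun f => DFunLike.ext _ _ fun z => ?_, fun h => h ▸ key⟩
  exact (h.eq _ (H783.gd_mem ℓ.coprime) (H783.gd_d ℓ.coprime) f z).trans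
    (key.eq _ (H783.gd_mem ℓ.coprime) (H783.gd_d ℓ.coprime) f z).symm

theorem isS_iff (ℓ : PA N) (i : ℕ) (T : Module.End ℂ (MF N (i + 1))) :
    IsS N ℓ.1 i T ↔ T = gHk N (Sum.inr ℓ) i := by
  have key : IsS N ℓ.1 i (gHk N (Sum.inr ℓ) i) := ⟨fun γ h1 h2 f z => by
    change (ℓ.1 : ℂ) ^ i * (H783.dia (i + 1) ℓ f : ℍ → ℂ) z = _
    rw [H783.dia_coe, H783.dFun_eq ℓ h1 h2]⟩
  refine ⟨fun h => LinearMap.ext fun f => DFunLike.ext _ _ fun z => ?_, fun h => h ▸ key⟩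
  exact (h.eq _ (H783.gd_mem ℓ.coprime) (H783.gd_d ℓ.coprime) f z).trans
    (key.eq _ (H783.gd_mem ℓ.coprime) (H783.gd_d ℓ.coprime) f z).symm

/-- the generators -/
def gE (N : ℕ) [NeZero N] : Gen N → ∀ i, EndM N i := gHk N

theorem gens_eq (N : ℕ) [NeZero N] : gens N = Set.range (gE N) := by
  ext T
  constructor
  · rintro ⟨l, h1, h2, h | h⟩
    · exact ⟨Sum.inl ⟨l, h1, h2⟩, funext fun i => ((isT_iff ⟨l, h1, h2⟩ i _).1 (h i)).symm⟩
    · exact ⟨Sum.inr ⟨l, h1, h2⟩, funext fun i => ((isS_iff ⟨l, h1, h2⟩ i _).1 (h i)).symm⟩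
  · rintro ⟨l | l, rfl⟩
    · exact ⟨l.1, l.2.1, l.2.2, Or.inl fun i => (isT_iff l i _).2 rfl⟩
    · exact ⟨l.1, l.2.1, l.2.2, Or.inr fun i => (isS_iff l i _).2 rfl⟩

end

/-- the same as `El`, for any set of generators -/
def El' {V : ℕ → RingCat.{0}} (G : Set (∀ i, V i)) (P : ∀ i, V i → Prop)
    (x : (limit (Tw G) :)) : Prop :=
  ∀ k, ∃ t : Sub (cut V k '' G), (∀ i : Fin k, P i (val t i)) ∧ pr (Tw G) k x = tz t

theorem el'_iff {V : ℕ → RingCat.{0}} {S : Type} (g : S → ∀ i, V i) (s : S)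
    {P : ∀ i, V i → Prop} (h : ∀ i T, P i T ↔ T = g s i) (x : (limit (Tw (Set.range g)) :)) :
    El' (Set.range g) P x ↔ x = gl g s := by
  refine ⟨fun hx => pr_ext _ fun k => ?_, fun hx k => ⟨ga g k s, fun i => (h _ _).2 rfl, ?_⟩⟩
  · obtain ⟨t, h1, h2⟩ := hx k
    have e : t = ga g k s := Subtype.ext (funext fun i => (h _ _).1 (h1 i))
    rw [h2, e, pr_gl]
  · rw [hx, pr_gl]

/-- what the proof needs of the limit -/
theorem pack {V : ℕ → RingCat.{0}} {S : Type} (g : S → ∀ i, V i) {G : Set (∀ i, V i)}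
    (hG : G = Set.range g) : ∃ e : S → (limit (Tw G) :),
      (∀ s (P : ∀ i, V i → Prop), (∀ i T, P i T ↔ T = g s i) → ∀ x, El' G P x ↔ x = e s) ∧
      ∀ (E : Type) [NontriviallyNormedField E] [NormedAlgebra ℚ_[2] E] [Algebra ℤ_[2] E]
        [IsScalarTower ℤ_[2] ℚ_[2] E],
        ((∀ x : E, ‖x‖ ≤ 1 → IsIntegral ℤ_[2] x) → ∀ c : ContHom g E,
          ∃ lam : (limit (Tw G) :) → integralClosure ℤ_[2] E, Hom (Tw G) lam ∧
            ∀ s, (lam (e s)).1 = c.val s) ∧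
        ∀ lam : (limit (Tw G) :) → integralClosure ℤ_[2] E, Hom (Tw G) lam → ∀ ε : ℝ, 0 < ε →
          ∃ k : ℕ, ∀ X : FreeAlgebra ℤ S, (∀ i < k, FreeAlgebra.lift ℤ (fun s => g s i) X = 0) →
            ‖FreeAlgebra.lift ℤ (fun s => (lam (e s)).1) X‖ < ε := by
  subst hG
  exact ⟨gl g, fun s P h => el'_iff g s h, fun E _ _ _ _ => ⟨hom_of g, fun lam => lim_of g⟩⟩

theorem el_iff {N : ℕ} {P : ∀ i, EndM N i → Prop} {x : T2 N} : El N P x ↔ El' (gens N) P x :=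
  ⟨fun h => h.ex, fun h => ⟨h⟩⟩

/-- the elements `T_ℓ` and `ℓ S_ℓ` are well defined -/
theorem el_unique {N ℓ : ℕ} (hN : N ≠ 0) (h1 : ℓ.Prime) (h2 : ¬ ℓ ∣ 2 * N) :
    (∃! x, El N (IsT N ℓ) x) ∧ ∃! x, El N (IsS N ℓ) x := by
  haveI : NeZero N := ⟨hN⟩
  obtain ⟨e, he, -⟩ := pack (gE N) (gens_eq N)
  have a := he (Sum.inl ⟨ℓ, h1, h2⟩) _ (isT_iff ⟨ℓ, h1, h2⟩)
  have b := he (Sum.inr ⟨ℓ, h1, h2⟩) _ (isS_iff ⟨ℓ, h1, h2⟩)
  exact ⟨⟨_, el_iff.2 ((a _).2 rfl), fun y hy => (a _).1 (el_iff.1 hy)⟩,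
    ⟨_, el_iff.2 ((b _).2 rfl), fun y hy => (b _).1 (el_iff.1 hy)⟩⟩

/-! ### the Galois side -/

section

variable {E : Type} [Field E] [TopologicalSpace E] {r : Rep E}

theorem unr_iff {ℓ : ℕ} : Unr r ℓ ↔ UnrAt r.hom ℓ :=
  ⟨fun h P hP hl g hg => h.le P hP hl hg, fun h => ⟨fun P hP hl g hg => h P hP hl g hg⟩⟩

theorem odd_iff : IsOdd r ↔ OddRep r.hom :=
  ⟨fun h c ⟨φ, hφ⟩ => h.eq φ c (RingHom.ext fun x => (hφ x).symm),
    fun h => ⟨fun φ c hc => h c ⟨φ, hc.eq⟩⟩⟩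

theorem away_iff {S : Finset ℕ} : Away r S ↔ UnrS S r.hom :=
  ⟨fun h p a b c => unr_iff.1 (h.unr p a b c), fun h => ⟨fun p a b c => unr_iff.2 (h p a b c)⟩⟩

end

theorem frob_iff {ℓ : ℕ} (hℓ : ℓ.Prime) {P : Ideal (𝓞 Qb)} (hP : P.IsPrime)
    (hl : (ℓ : 𝓞 Qb) ∈ P) (σ : GQ) : IsArithFrobAt ℤ σ P ↔ ∀ x : 𝓞 Qb, σ • x - x ^ ℓ ∈ P := by
  have h1 : (Ideal.span {(ℓ : ℤ)}).IsMaximal :=
    Ideal.IsPrime.isMaximal ((Ideal.span_singleton_prime (by exact_mod_cast hℓ.ne_zero)).2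
      (Nat.prime_iff_prime_int.1 hℓ)) (by simpa using hℓ.ne_zero)
  have h2 : Ideal.span {(ℓ : ℤ)} = P.under ℤ := h1.eq_of_le (Ideal.IsPrime.under ℤ P).ne_top
    ((Ideal.span_singleton_le_iff_mem _).2 (by rw [Ideal.mem_comap, map_natCast]; exact hl))
  have h3 : Nat.card (ℤ ⧸ P.under ℤ) = ℓ := by
    rw [← h2, Nat.card_congr (Int.quotientSpanNatEquivZMod ℓ).toEquiv, Nat.card_zmod]
  refine forall_congr' fun x => ?_
  rw [h3]
  rfl

/-! ### norms -/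

theorem int_of_le {E : Type} [NontriviallyNormedField E] [NormedAlgebra ℚ_[2] E]
    [FiniteDimensional ℚ_[2] E] [Algebra ℤ_[2] E] [IsScalarTower ℤ_[2] ℚ_[2] E] (x : E)
    (h : ‖x‖ ≤ 1) : IsIntegral ℤ_[2] x := by
  have hi : IsIntegral ℚ_[2] x := Algebra.IsIntegral.isIntegral x
  rw [NormedAlgebra.norm_eq_spectralNorm ℚ_[2], spectralNorm,
    spectralValue_le_one_iff (minpoly.monic hi)] at h
  have h1 : minpoly ℚ_[2] x ∈ Polynomial.lifts (algebraMap ℤ_[2] ℚ_[2]) := by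
    rw [Polynomial.lifts_iff_coeff_lifts]
    exact fun n => ⟨⟨_, h n⟩, rfl⟩
  obtain ⟨p, hp, -, hm⟩ := Polynomial.lifts_and_degree_eq_and_monic h1 (minpoly.monic hi)
  refine ⟨p, hm, ?_⟩
  rw [← Polynomial.aeval_def, ← Polynomial.aeval_map_algebraMap ℚ_[2], hp, minpoly.aeval]

theorem nil_iff {E : Type} [NontriviallyNormedField E] {x : E} :
    IsTopologicallyNilpotent x ↔ ‖x‖ < 1 := tendsto_pow_atTop_nhds_zero_iff_norm_lt_one

/-- the module topology is the topology of the norm -/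
theorem transport {Φ : ∀ (E : Type) [Field E] [TopologicalSpace E] [Algebra ℤ_[2] E], Prop}
    (h : ∀ (E : Type) [NontriviallyNormedField E] [NormedAlgebra ℚ_[2] E]
      [FiniteDimensional ℚ_[2] E] [Algebra ℤ_[2] E] [IsScalarTower ℤ_[2] ℚ_[2] E], Φ E)
    (E : Type) [Field E] [Algebra ℚ_[2] E] [t : TopologicalSpace E] [Algebra ℤ_[2] E]
    (hE : Ext E) : Φ E := by
  obtain ⟨_, m, _⟩ := hE
  have e := eq_moduleTopology ℚ_[2] E
  clear m
  subst e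
  letI nf := spectralNorm.nontriviallyNormedField ℚ_[2] E
  letI na : NormedAlgebra ℚ_[2] E := spectralNorm.normedAlgebra ℚ_[2] E
  have m' : @IsModuleTopology ℚ_[2] _ E _ _
      nf.toPseudoMetricSpace.toUniformSpace.toTopologicalSpace := isModuleTopologyOfFiniteDimensional
  have e := @eq_moduleTopology ℚ_[2] _ E _ _
    nf.toPseudoMetricSpace.toUniformSpace.toTopologicalSpace m'
  exact e ▸ h E

/-! ### occurrence -/

theorem occ_iff {E : Type} [NontriviallyNormedField E] [NormedAlgebra ℚ_[2] E]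
    [FiniteDimensional ℚ_[2] E] [Algebra ℤ_[2] E] [IsScalarTower ℤ_[2] ℚ_[2] E]
    (r : Rep E) (N : ℕ) [NeZero N] : Occurs r N ↔ P022.Occurs E N r.hom := by
  obtain ⟨e, he, h⟩ := pack (gE N) (gens_eq N)
  obtain ⟨hB, hA⟩ := h E
  have a := fun l : PA N => he (Sum.inl l) _ (isT_iff l)
  have b := fun l : PA N => he (Sum.inr l) _ (isS_iff l)
  constructor
  · rintro ⟨h1, lam, h2, h3⟩
    refine occ_lim r.cont (fun l => unr_iff.1 (h1 l.1 l.2.1 l.2.2)) fun φ hφ => ?_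
    have e1 : sys r.hom φ = fun s => (lam (e s)).1 := by
      funext s
      rcases s with l | l
      all_goals
        obtain ⟨P, hP, hl, hx⟩ := hφ l
        obtain ⟨x, y, hx, hy, ht, hd⟩ :=
          h3 l.1 l.2.1 l.2.2 P hP hl (φ l) ((frob_iff l.2.1 hP hl _).2 hx)
      · rw [← (a l x).1 (el_iff.1 hx)]
        exact ht.symm
      · rw [← (b l y).1 (el_iff.1 hy)]
        exact hd.symm
    rw [e1]
    exact hA lam h2
  · rintro ⟨h1, c, h2⟩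
    obtain ⟨lam, h3, h4⟩ := hB int_of_le c
    refine ⟨fun l a b => unr_iff.2 (h1 ⟨l, a, b⟩), lam, h3, fun l h5 h6 P hP hl σ hσ => ?_⟩
    obtain ⟨ht, hd⟩ := h2 ⟨l, h5, h6⟩ σ ⟨P, hP, hl, (frob_iff h5 hP hl σ).1 hσ⟩
    exact ⟨_, _, el_iff.2 ((a ⟨l, h5, h6⟩ _).2 rfl), el_iff.2 ((b ⟨l, h5, h6⟩ _).2 rfl),
      (h4 _).trans ht, (h4 _).trans hd⟩

end Vale.Agent.N022.D
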