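import Mathlib

/-!
P022: the words of the statement.
-/

open scoped TensorProduct MatrixGroups ModularForm NumberField Topology
open UpperHalfPlane CongruenceSubgroup Matrix CategoryTheory Limits

noncomputable section

namespace Vale.Agent.N022.D

/-- `ℤ₂ ⊗ A` -/
def Z (A : RingCat.{0}) : AlgCat.{0} ℤ_[2] := AlgCat.of ℤ_[2] (ℤ_[2] ⊗[ℤ] A)

/-- `1 ⊗ t` -/
def tz {A : RingCat.{0}} (t : A) : Z A := (1 ⊗ₜ t : ℤ_[2] ⊗[ℤ] A)

/-- `id ⊗ f` -/
def zm {A B : RingCat.{0}} (f : A ⟶ B) : Z A ⟶ Z B :=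
  AlgCat.ofHom (Algebra.TensorProduct.map (AlgHom.id ℤ_[2] ℤ_[2]) f.hom.toIntAlgHom)

/-- the subring generated by `s` -/
def Sub {R : RingCat.{0}} (s : Set R) : RingCat.{0} := RingCat.of (Subring.closure s)

/-- the inclusion -/
def val {R : RingCat.{0}} {s : Set R} (t : Sub s) : R := Subtype.val t

/-- the restriction of `f` to the generated subrings -/
def sm {R R' : RingCat.{0}} (f : R ⟶ R') {X : Type} (a : X → R) (g : Set X) :
    Sub (a '' g) ⟶ Sub ((fun x => f.hom (a x)) '' g) :=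
  RingCat.ofHom (f.hom.restrict (Subring.closure (a '' g))
    (Subring.closure ((fun x => f.hom (a x)) '' g)) (by
      intro x hx
      rw [← Set.image_image, ← RingHom.map_closure]
      exact ⟨x, hx, rfl⟩))

section

variable (V : ℕ → RingCat.{0})

/-- `V 0 × ⋯ × V (k - 1)` -/
def W (k : ℕ) : RingCat.{0} := RingCat.of (∀ i : Fin k, V i)

/-- the first `k` components -/
def cut (k : ℕ) (T : ∀ i, V i) : W V k := fun i => T i

/-- forget the last component -/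
def res (k : ℕ) : W V (k + 1) ⟶ W V k :=
  RingCat.ofHom (RingHom.pi fun i : Fin k => Pi.evalRingHom (fun i : Fin (k + 1) => V i) i.castSucc)

variable {V}

/-- the tower of the `ℤ₂ ⊗ T_{≤ k}`, `T_{≤ k}` the ring which `g` generates on the first `k`
components -/
def Tw (g : Set (∀ i, V i)) : ℕᵒᵖ ⥤ AlgCat.{0} ℤ_[2] :=
  Functor.ofOpSequence (X := fun k => Z (Sub (cut V k '' g))) fun k =>
    zm (sm (res V k) (cut V (k + 1)) g)

end

/-- the `k`-th component -/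
def pr (F : ℕᵒᵖ ⥤ AlgCat.{0} ℤ_[2]) [HasLimit F] (k : ℕ) (x : (limit F :)) : F.obj ⟨k⟩ :=
  (limit.π F ⟨k⟩).hom x

/-- `lam` is a `ℤ₂`-algebra map, continuous for the inverse limit of the 2-adic topologies -/
structure Hom (F : ℕᵒᵖ ⥤ AlgCat.{0} ℤ_[2]) {O : Type} [CommRing O] [Algebra ℤ_[2] O]
    [TopologicalSpace O] (lam : (limit F :) → O) : Prop where
  alg : ∃ f : (limit F :) →ₐ[ℤ_[2]] O, ⇑f = lam
  cont : Continuous[⨅ k, ((Ideal.span {(2 : ℤ_[2])}).adicModuleTopology (F.obj ⟨k⟩)).induced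
    (pr F k), _] lam

/-- `T` is `T_ℓ` on `M_(i+1)(Γ₁(N))` -/
structure IsT (N ℓ i : ℕ) (T : Module.End ℂ (ModularForm (Gamma1 N) (i + 1 : ℕ))) : Prop where
  eq : ∀ γ ∈ Gamma0 N, (γ 1 1 : ZMod N) = ℓ → ∀ f (z : ℍ), T f z =
    (∑ j ∈ Finset.range ℓ, f (ofComplex ((z + j) / ℓ))) / ℓ +
      ℓ ^ i * (⇑f ∣[((i + 1 : ℕ) : ℤ)] γ) (ofComplex (ℓ * z))

/-- `T` is `ℓ S_ℓ = ℓ ^ i ⟨ℓ⟩` on `M_(i+1)(Γ₁(N))` -/
structure IsS (N ℓ i : ℕ) (T : Module.End ℂ (ModularForm (Gamma1 N) (i + 1 : ℕ))) : Prop where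
  eq : ∀ γ ∈ Gamma0 N, (γ 1 1 : ZMod N) = ℓ → ∀ f (z : ℍ), T f z =
    ℓ ^ i * (⇑f ∣[((i + 1 : ℕ) : ℤ)] γ) z

/-- the endomorphisms of `M_(i+1)(Γ₁(N))` -/
def EndM (N i : ℕ) : RingCat.{0} :=
  RingCat.of (Module.End ℂ (ModularForm (Gamma1 N) (i + 1 : ℕ)))

/-- the operators `T_ℓ` and `ℓ S_ℓ`, `ℓ ∤ 2 N` -/
def gens (N : ℕ) : Set (∀ i, EndM N i) :=
  {T | ∃ ℓ : ℕ, ℓ.Prime ∧ ¬ ℓ ∣ 2 * N ∧ ((∀ i, IsT N ℓ i (T i)) ∨ ∀ i, IsS N ℓ i (T i))}

/-- `𝕋₂(N)` -/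
def T2 (N : ℕ) : Type := (limit (Tw (gens N)) :)

/-- `x` is `1 ⊗ t` at every level, `t` an operator with the property `P` in each weight -/
structure El (N : ℕ) (P : ∀ i, EndM N i → Prop) (x : T2 N) : Prop where
  ex : ∀ k, ∃ t : Sub (cut (EndM N) k '' gens N),
    (∀ i : Fin k, P i (val t i)) ∧ pr (Tw (gens N)) k x = tz t

/-- `E` is a finite extension of `ℚ₂` with its natural topology and `ℤ₂`-algebra structure -/
structure Ext (E : Type) [Field E] [Algebra ℚ_[2] E] [TopologicalSpace E] [Algebra ℤ_[2] E] :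
    Prop where
  fin : FiniteDimensional ℚ_[2] E
  top : IsModuleTopology ℚ_[2] E
  tower : IsScalarTower ℤ_[2] ℚ_[2] E

/-- continuous representations `G_ℚ → GL₂(E)` -/
structure Rep (E : Type) [Field E] [TopologicalSpace E] where
  hom : Gal(AlgebraicClosure ℚ/ℚ) →* GL (Fin 2) E
  cont : Continuous hom

section

variable {E : Type} [Field E] [TopologicalSpace E] (r : Rep E)

/-- unramified at `ℓ` -/
structure Unr (ℓ : ℕ) : Prop where
  le : ∀ P : Ideal (𝓞 (AlgebraicClosure ℚ)), P.IsPrime → ↑ℓ ∈ P → P.inertia _ ≤ r.hom.ker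

/-- odd -/
structure IsOdd : Prop where
  eq : ∀ (φ : AlgebraicClosure ℚ →+* ℂ) c, NumberField.ComplexEmbedding.IsConj φ c →
    (r.hom c).1.det = -1

/-- absolutely irreducible: no stable line over the algebraic closure -/
structure AbsIrr : Prop where
  ne : ∀ w : Fin 2 → AlgebraicClosure E, w ≠ 0 → ∃ σ, ∀ a : AlgebraicClosure E,
    (r.hom σ).1.map (algebraMap E _) *ᵥ w ≠ a • w

/-- unramified outside finitely many primes -/
structure FinRam : Prop where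
  fin : {p : ℕ | p.Prime ∧ ¬ Unr r p}.Finite

/-- unramified outside `S` and two -/
structure Away (S : Finset ℕ) : Prop where
  unr : ∀ p : ℕ, p.Prime → p ≠ 2 → p ∉ S → Unr r p

/-- `a (tr r(σ))` and `b (det r(σ))` lie in the maximal ideal of `𝓞_E` -/
structure Nil (a b : Polynomial ℤ) : Prop where
  nil : ∀ σ, IsTopologicallyNilpotent (a.aeval (r.hom σ).1.trace) ∧
    IsTopologicallyNilpotent (b.aeval (r.hom σ).1.det)

variable [Algebra ℤ_[2] E]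

/-- `r` occurs at level `N` -/
structure Occurs (N : ℕ) : Prop where
  unr : ∀ ℓ : ℕ, ℓ.Prime → ¬ ℓ ∣ 2 * N → Unr r ℓ
  ex : ∃ lam : T2 N → integralClosure ℤ_[2] E, Hom (Tw (gens N)) lam ∧
    ∀ ℓ : ℕ, ℓ.Prime → ¬ ℓ ∣ 2 * N → ∀ P : Ideal (𝓞 (AlgebraicClosure ℚ)), P.IsPrime → ↑ℓ ∈ P →
      ∀ σ, IsArithFrobAt ℤ σ P → ∃ x y, El N (IsT N ℓ) x ∧ El N (IsS N ℓ) y ∧
        (lam x).1 = (r.hom σ).1.trace ∧ (lam y).1 = (r.hom σ).1.det

/-- the conclusion of Question 1 -/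
structure Q1 : Prop where
  ex : ∃ N : ℕ, Odd N ∧ (∀ p : ℕ, p.Prime → p ∣ N → ¬ Unr r p) ∧ Occurs r N

end

end Vale.Agent.N022.D
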