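import Vale.Agent.N022.Odd
import Vale.Agent.P022D.V.Emb
import Vale.Agent.P022D.V.IrrB
import Vale.Agent.P022D.V.TrL
import Vale.Agent.P022.H227.LiftA
import Vale.Agent.P022.H645.TrX
import Vale.Agent.P022.H889.HsX

/-!
# N022: an eigenform of level `N 2 ^ s` whose character has level `N` is a limit of level `N`
-/

set_option linter.all false

open scoped MatrixGroups ModularForm Real
open NumberField Matrix UpperHalfPlane CongruenceSubgroup

noncomputable section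

namespace Vale.Agent.N022

open Vale.Agent.P022 Vale.Agent.P022.H567.Tw Vale.Agent.P022.H353 Vale.Agent.P022.H220
  Vale.Agent.P022.H218.L3

/-- the algebraic closure of `ℚ₂` -/
abbrev Om : Type := PadicAlgCl 2

section

variable (ι : Om ≃+* ℂ)

/-- the unit ball -/
def AA : ValuationSubring ℂ :=
  P022D.V.Emb.ball (fun z => ‖ι.symm z‖) (fun _ => norm_nonneg _) (by simp) (by simp)
    (fun x y => by rw [map_mul, norm_mul])
    (fun x y => by rw [map_add]; exact IsUltrametricDist.norm_add_le_max _ _)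
    (fun x => by rw [map_neg, norm_neg])

theorem mem_AA {z : ℂ} : z ∈ AA ι ↔ ‖ι.symm z‖ ≤ 1 := Iff.rfl

/-- the ball of radius `ρ` -/
def BB (ρ : ℝ) (h : 0 ≤ ρ) : AddSubgroup ℂ where
  carrier := {z | ‖ι.symm z‖ ≤ ρ}
  zero_mem' := by simpa using h
  add_mem' {x y} hx hy := by
    change ‖ι.symm (x + y)‖ ≤ ρ
    rw [map_add]
    exact (IsUltrametricDist.norm_add_le_max _ _).trans (max_le hx hy)
  neg_mem' {x} hx := by
    change ‖ι.symm (-x)‖ ≤ ρ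
    rwa [map_neg, norm_neg]

theorem arch_AA : P022D.Irr.Arch (AA ι) := by
  intro a h haA hh
  rw [mem_AA, not_le] at haA
  obtain ⟨m, hm'⟩ := pow_unbounded_of_one_lt ‖ι.symm h‖⁻¹ haA
  refine ⟨m, ?_⟩
  rw [mem_AA, not_le, map_mul, map_pow, norm_mul, norm_pow]
  have p : 0 < ‖ι.symm h‖ := norm_pos_iff.2 (by simpa using hh)
  rwa [inv_lt_iff_one_lt_mul₀' p] at hm'

theorem int_AA (z : ℂ) (hz : IsIntegral ℤ z) : z ∈ (AA ι).toSubring := by
  have h1 : IsIntegral (AA ι) z := hz.tower_top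
  obtain ⟨y, hy⟩ := IsIntegrallyClosed.isIntegral_iff.1 h1
  rw [← hy]
  exact y.2

theorem norm_nat (n : ℕ) : ‖ι.symm n‖ ≤ 1 := by
  rw [map_natCast]
  exact IsUltrametricDist.norm_natCast_le_one _ _

theorem norm_chi {N : ℕ} [NeZero N] (ω : DirichletCharacter ℂ N) (a : ZMod N) :
    ‖ι.symm (ω a)‖ ≤ 1 := by
  by_cases h : IsUnit a
  · obtain ⟨u, rfl⟩ := h
    have h1 : ‖ι.symm (ω u)‖ ^ Fintype.card (ZMod N)ˣ = 1 := by
      rw [← norm_pow, ← map_pow, ← map_pow, ← Units.val_pow_eq_pow_val, pow_card_eq_one,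
        Units.val_one, map_one, map_one, norm_one]
    exact ((pow_eq_one_iff_of_nonneg (norm_nonneg _) Fintype.card_ne_zero).1 h1).le
  · rw [ω.map_nonunit h, map_zero, norm_zero]
    exact zero_le_one

theorem norm_two_pow (t : ℕ) : ‖ι.symm (2 ^ t)‖ = 2⁻¹ ^ t := by
  rw [map_pow, map_ofNat, norm_pow, norm_two_E]

end

/-- a word acts on a formal eigenvector by its value -/
theorem wd_eig {N : ℕ} (a : Gen N → ℂ) (c : ℕ → ℕ → ℂ)
    (h : ∀ s n δ, Nat.Coprime δ (2 * N) → H761.fG ℂ N s c n δ = a s * c n δ)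
    (X : FreeAlgebra ℤ (Gen N)) : ∀ (z : ℂ) (c' : ℕ → ℕ → ℂ),
      (∀ n δ, Nat.Coprime δ (2 * N) → c' n δ = z * c n δ) → ∀ n δ, Nat.Coprime δ (2 * N) →
        H761.Wd ℂ N X c' n δ = FreeAlgebra.lift ℤ a X * z * c n δ := by
  induction X using FreeAlgebra.induction with
  | grade0 r =>
    intro z c' hc n δ hδ
    rw [AlgHom.commutes, AlgHom.commutes]
    simp only [Algebra.algebraMap_eq_smul_one, LinearMap.smul_apply, Module.End.one_apply,
      Pi.smul_apply]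
    rw [hc n δ hδ]
    simp [mul_assoc]
  | grade1 s =>
    intro z c' hc n δ hδ
    have h1 := h s n δ hδ
    rw [H761.Wd, FreeAlgebra.lift_ι_apply, FreeAlgebra.lift_ι_apply, mul_comm (a s), mul_assoc,
      ← h1]
    cases s with
    | inl ℓ =>
      change c' (ℓ.1 * n) δ + (if ℓ.1 ∣ n then c' (n / ℓ.1) (ℓ.1 * δ) else 0) =
        z * (c (ℓ.1 * n) δ + (if ℓ.1 ∣ n then c (n / ℓ.1) (ℓ.1 * δ) else 0))
      rw [hc _ _ hδ, hc _ _ (cop_mul ℓ hδ)]
      split_ifs <;> ring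
    | inr ℓ => exact hc _ _ (cop_mul ℓ hδ)
  | mul x y hx hy =>
    intro z c' hc n δ hδ
    rw [map_mul, map_mul, Module.End.mul_apply,
      hx (FreeAlgebra.lift ℤ a y * z) _ (fun n δ hδ => hy z c' hc n δ hδ) n δ hδ]
    ring
  | add x y hx hy =>
    intro z c' hc n δ hδ
    rw [map_add, map_add, LinearMap.add_apply, Pi.add_apply, Pi.add_apply, hx z c' hc n δ hδ,
      hy z c' hc n δ hδ]
    ring

theorem rep_unique {N i : ℕ} {G : MF N (i + 1)} {c c' : ℕ → ℕ → ℂ} (h : Rep N i G c)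
    (h' : Rep N i G c') (n δ : ℕ) (hδ : Nat.Coprime δ (2 * N)) : c n δ = c' n δ :=
  Hs.unique (h δ hδ) (h' δ hδ) n

theorem rep_smul {N i : ℕ} {G : MF N (i + 1)} {c : ℕ → ℕ → ℂ} (z : ℂ) (h : Rep N i G c) :
    Rep N i (z • G) (fun n δ => z * c n δ) := by
  intro δ hδ
  refine Hs.congr (Hs.smul z (h δ hδ)) (fun τ => ?_) (fun n => rfl)
  rw [FunLike.coe_smul, ModularForm.SL_smul_slash]
  simp only [Pi.smul_apply, smul_eq_mul]
  ring

theorem hs_ex {M : ℕ} {s : PowerSeries ℂ} {f : ℍ → ℂ} (h : P022D.V.HS M s f) (τ : ℍ) :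
    HasSum (fun n : ℕ => s.coeff n * Complex.exp (2 * π * Complex.I * n * (τ : ℂ) / M)) (f τ) := by
  refine hs_congr' (h τ) fun n => ?_
  rw [Function.Periodic.qParam, ← Complex.exp_nat_mul]
  congr 2
  push_cast
  ring

theorem unit_of_det {N : ℕ} (γ : SL(2, ℤ)) (h : (N : ℤ) ∣ γ 1 0) :
    IsUnit ((γ 1 1 : ℤ) : ZMod N) := by
  have hd := γ.det_coe
  rw [Matrix.det_fin_two] at hd
  have h1 := congrArg (fun x : ℤ => (x : ZMod N)) hd
  push_cast at h1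
  rw [(ZMod.intCast_zmod_eq_zero_iff_dvd _ _).2 h, mul_zero, sub_zero] at h1
  exact IsUnit.of_mul_eq_one_right _ h1

/-- **the power of two in the level can be dropped** -/
theorem drop (ι : Om ≃+* ℂ) {N N' s κ : ℕ} [NeZero N] [NeZero N'] (hN : Odd N)
    (hN' : N' = N * 2 ^ s) (f : MF N' (κ + 1)) (hf : f ≠ 0) (ω : DirichletCharacter ℂ N)
    (lam : ℕ → ℂ) (hT : ∀ ℓ : PA N', H783.Tl (κ + 1) ℓ f = lam ℓ.1 • f)
    (hD : ∀ ℓ : PA N', H783.dia (κ + 1) ℓ f = ω (ℓ.1 : ZMod N) • f) :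
    Lim N (fun s : Gen N => ι.symm (Sum.elim (fun ℓ : PA N => lam ℓ.1)
      (fun ℓ : PA N => (ℓ.1 : ℂ) ^ κ * ω (ℓ.1 : ZMod N)) s)) := by
  have hNN : N ∣ N' := ⟨_, hN'⟩
  have law : ∀ γ : SL(2, ℤ), (N' : ℤ) ∣ γ 1 0 → (f : ℍ → ℂ) ∣[((κ + 1 : ℕ) : ℤ)] γ =
      ω ((γ 1 1 : ℤ) : ZMod N) • (f : ℍ → ℂ) := by
    intro γ hγ
    obtain ⟨ℓ, hℓ⟩ := ex_prime N' N' (NeZero.ne _) _ (unit_of_det γ hγ)
    have h1 := congrArg (ZMod.castHom hNN (ZMod N)) hℓ
    rw [map_natCast, map_intCast] at h1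
    rw [← H783.dFun_eq ℓ (Gamma0_mem.2 ((ZMod.intCast_zmod_eq_zero_iff_dvd _ _).2 hγ)) hℓ.symm,
      ← H783.dia_coe, hD, FunLike.coe_smul, h1]
  have mf : IsMF (Gamma N') ((κ + 1 : ℕ) : ℤ) (f : ℍ → ℂ) := by
    refine ⟨f.holo', fun γ hγ => ?_, fun γ => ModularFormClass.bdd_at_infty_slash f γ⟩
    obtain ⟨-, -, h1, h2⟩ := Gamma_mem.1 hγ
    have h3 := congrArg (ZMod.castHom hNN (ZMod N)) h2
    rw [map_intCast, map_one] at h3
    rw [law γ ((ZMod.intCast_zmod_eq_zero_iff_dvd _ _).1 h1), h3, map_one, one_smul]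
  obtain ⟨c₀, c0, hc₀⟩ := P022D.Irr.bnd (AA ι) (arch_AA ι) (NeZero.pos N') mf
  obtain ⟨B, hB⟩ := pow_unbounded_of_one_lt ‖ι.symm c₀⁻¹‖ (show (1 : ℝ) < 2 by norm_num)
  have hex : ∀ γ : SL(2, ℤ), Ex (BB ι (2 ^ B) (by positivity)) N'
      ((f : ℍ → ℂ) ∣[((κ + 1 : ℕ) : ℤ)] γ) := by
    intro γ
    have m := P022D.Irr.conjN mf γ
    refine ⟨_, fun n => ?_, hs_ex (P022D.V.Tr.hs_qExp (NeZero.pos N') m.hol
      (by simpa using m.bdd 1) (m.slash _ (by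
        rw [zpow_natCast]; exact P022D.Irr.T_pow_Gamma N')))⟩
    have h1 := (mem_AA ι).1 (hc₀ γ n)
    change ‖ι.symm _‖ ≤ 2 ^ B
    rw [← inv_mul_cancel_left₀ c0 (PowerSeries.coeff n _), map_mul, norm_mul]
    exact (mul_le_of_le_one_right (norm_nonneg _) h1).trans hB.le
  obtain ⟨a, ha⟩ := hasSum_form f
  have ha' : Hs f a := ha
  have haB : ∀ n, ‖ι.symm (a n)‖ ≤ 2 ^ B := fun n =>
    ha'.mem (NeZero.pos N') (by simpa using hex 1) n
  obtain ⟨n₀, hn₀⟩ : ∃ n, a n ≠ 0 := by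
    by_contra hne
    push Not at hne
    refine hf (DFunLike.ext _ _ fun τ => ?_)
    have := ha τ
    simp only [hne, zero_mul] at this
    exact this.unique hasSum_zero
  let c : ℕ → ℕ → ℂ := fun n δ => (δ : ℂ) ^ κ * (ω (δ : ZMod N) * a n)
  have hrep : Rep N' κ f c := by
    intro δ hδ
    refine Hs.congr ((ha'.smul (ω (δ : ZMod N))).smul ((δ : ℂ) ^ κ)) (fun τ => ?_) fun n => rfl
    rw [law _ (dvd_refl _), gd11, Int.cast_natCast]
    rfl
  have cop : ∀ δ : ℕ, Nat.Coprime δ (2 * N) → Nat.Coprime δ (2 * N') := fun δ h => by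
    rw [hN', ← mul_assoc]
    exact h.mul_right ((Nat.Coprime.coprime_mul_right_right h).pow_right s)
  let sy : Gen N → ℂ := Sum.elim (fun ℓ : PA N => lam ℓ.1)
      (fun ℓ : PA N => (ℓ.1 : ℂ) ^ κ * ω (ℓ.1 : ZMod N))
  have eig : ∀ s n δ, Nat.Coprime δ (2 * N) → H761.fG ℂ N s c n δ = sy s * c n δ := by
    rintro (ℓ | ℓ) n δ hδ
    · let ℓ' : PA N' := ⟨ℓ.1, ℓ.2.1, (Nat.Prime.coprime_iff_not_dvd ℓ.2.1).1 (cop _ (PA_cop2 ℓ))⟩
      have h1 := hrep.opT ℓ'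
      rw [gHk] at h1
      beta_reduce at h1
      rw [hT] at h1
      exact rep_unique h1 (rep_smul _ hrep) n δ (cop δ hδ)
    · change ((ℓ.1 * δ : ℕ) : ℂ) ^ κ * (ω ((ℓ.1 * δ : ℕ) : ZMod N) * a n) =
        (ℓ.1 : ℂ) ^ κ * ω (ℓ.1 : ZMod N) * ((δ : ℂ) ^ κ * (ω (δ : ZMod N) * a n))
      push_cast
      rw [map_mul]
      ring
  intro ε hε
  have p0 : 0 < ‖ι.symm (c n₀ 1)‖ := norm_pos_iff.2 (by simpa [c] using hn₀)
  obtain ⟨t, ht⟩ := exists_pow_lt_of_lt_one (show 0 < ε * ‖ι.symm (c n₀ 1)‖ / 2 ^ B by positivity)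
    (show (2 : ℝ)⁻¹ < 1 by norm_num)
  obtain ⟨k, Φ, hΦ⟩ := H227.liftA H645.trX H889.HS2 (s := s) hN (AA ι).toSubring (int_AA ι) κ t
    {x : ℂ | ‖ι.symm x‖ ≤ 1} (fun x => x • (f : ℍ → ℂ)) (fun x j => x * a j)
    (fun ℓ x => ω (ℓ.1 : ZMod N) * x)
    (fun ℓ x hx => by
      change ‖ι.symm _‖ ≤ 1
      rw [map_mul, norm_mul]
      exact mul_le_one₀ (norm_chi ι ω _) (norm_nonneg _) hx)
    (fun x _ τ => by
      refine hs_congr' ((ha τ).mul_left x) fun n => ?_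
      simp [mul_assoc])
    (fun x _ γ h1 h2 => by
      rw [Gamma1_mem] at h1
      rw [ModularForm.SL_smul_slash, law γ ?_, h1.2.1, map_one, one_smul]
      rw [hN']
      push_cast
      exact IsCoprime.mul_dvd (by
        exact_mod_cast Nat.isCoprime_iff_coprime.2 ((Nat.coprime_two_right.2 hN).pow_right s))
        ((ZMod.intCast_zmod_eq_zero_iff_dvd _ _).1 h1.2.2) h2)
    (fun x _ ℓ δ h1 h2 => by
      rw [ModularForm.SL_smul_slash, law δ (by rwa [hN']), h2, Int.cast_natCast, smul_smul,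
        mul_comm])
    (fun γ => ⟨N', B, NeZero.pos _, fun x hx => by
      rw [ModularForm.SL_smul_slash]
      refine Ex.smul (c := x) (fun z hz => ⟨2 ^ B * (x * z), ?_, ?_⟩) (hex γ)
      · change ‖ι.symm _‖ ≤ 1
        have hz' : ‖ι.symm z‖ ≤ 2 ^ B := hz
        rw [map_mul, map_mul, norm_mul, norm_mul, norm_two_pow, inv_pow,
          inv_mul_le_iff₀ (by positivity), mul_one]
        exact (mul_le_of_le_one_left (norm_nonneg _) hx).trans hz'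
      · rw [← mul_assoc, ← mul_pow]
        simp⟩)
  refine ⟨κ + 2 ^ t * k + 1, fun X hX => ?_⟩
  obtain ⟨c', hc'⟩ := exists_rep (Φ 1)
  have close : ∀ n δ, Nat.Coprime δ (2 * N) →
      (c' - c) n δ ∈ BB ι (2⁻¹ ^ t * 2 ^ B) (by positivity) := by
    intro n δ hδ
    obtain ⟨ℓ, hℓ⟩ := ex_prime N N (NeZero.ne _) (δ : ZMod N)
      ((ZMod.isUnit_iff_coprime δ N).2 (cop_N hδ))
    have h1 := (hΦ 1 (by simp)).2 ℓ
    obtain ⟨a', h2, h3⟩ := (hΦ (ω (ℓ.1 : ZMod N) * 1) (by simpa using norm_chi ι ω _)).1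
    have h4 : (Φ 1 : ℍ → ℂ) ∣[((κ + 2 ^ t * k + 1 : ℕ) : ℤ)] gd N δ (cop_N hδ) =
        Φ (ω (ℓ.1 : ZMod N) * 1) := by
      rw [← h1, H783.dia_coe, H783.dFun_eq ℓ (H783.gd_mem (cop_N hδ)) (by
        rw [gd11, Int.cast_natCast, hℓ])]
    have h5 : Hs (Φ (ω (ℓ.1 : ZMod N) * 1)) a' := fun τ => hs_congr' (h3 τ) fun n => by simp
    have h6 := hc' δ hδ
    rw [h4] at h6
    have h7 := Hs.unique h6 (h5.smul _) n
    obtain ⟨y, hy, h8⟩ := h2 n
    have h9 : (2 : ℤ) ^ t ∣ (δ : ℤ) ^ (2 ^ t * k) - 1 := by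
      have o : Odd δ := Nat.coprime_two_right.1 (Nat.Coprime.coprime_mul_right_right hδ)
      obtain ⟨m, hm⟩ := o
      have e1 := dvd_sub_pow_of_dvd_sub (R := ℤ) (p := 2) (a := δ) (b := 1)
        ⟨m, by rw [hm]; push_cast; ring⟩ t
      rw [one_pow] at e1
      have e2 := sub_dvd_pow_sub_pow ((δ : ℤ) ^ 2 ^ t) 1 k
      rw [one_pow, ← pow_mul] at e2
      exact ((pow_dvd_pow _ t.le_succ).trans (by exact_mod_cast e1)).trans e2
    obtain ⟨w, hw⟩ := h9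
    have hw' := congrArg (fun z : ℤ => (z : ℂ)) hw
    push_cast at hw'
    have e : (c' - c) n δ = 2 ^ t * ((δ : ℂ) ^ κ * (w * (ω (δ : ZMod N) * a n))) +
        2 ^ t * ((δ : ℂ) ^ (κ + 2 ^ t * k) * y) := by
      change c' n δ - (δ : ℂ) ^ κ * (ω (δ : ZMod N) * a n) = _
      rw [h7, h8, hℓ, pow_add]
      linear_combination ((δ : ℂ) ^ κ * (ω (δ : ZMod N) * a n)) * hw'
    have nd : ∀ j : ℕ, ‖ι.symm ((δ : ℂ) ^ j)‖ ≤ 1 := fun j => by
      rw [map_pow, norm_pow]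
      exact pow_le_one₀ (norm_nonneg _) (norm_nat ι δ)
    rw [e]
    refine add_mem ?_ ?_
    · change ‖ι.symm _‖ ≤ _
      rw [map_mul, norm_mul, norm_two_pow]
      refine mul_le_mul_of_nonneg_left ?_ (by positivity)
      rw [map_mul, map_mul, map_mul, norm_mul, norm_mul, norm_mul, map_intCast]
      refine (mul_le_of_le_one_left (by positivity) (nd κ)).trans ?_
      refine (mul_le_of_le_one_left (by positivity)
        (IsUltrametricDist.norm_intCast_le_one _ _)).trans ?_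
      exact (mul_le_of_le_one_left (by positivity) (norm_chi ι ω _)).trans (haB n)
    · change ‖ι.symm _‖ ≤ _
      rw [map_mul, norm_mul, norm_two_pow]
      refine mul_le_mul_of_nonneg_left ?_ (by positivity)
      rw [map_mul, norm_mul]
      exact (mul_le_one₀ (nd _) (norm_nonneg _) hy).trans (one_le_pow₀ (by norm_num))
  have h1 : Nat.Coprime 1 (2 * N) := Nat.coprime_one_left _
  have h2 : ‖ι.symm (H761.Wd ℂ N X (c' - c) n₀ 1)‖ ≤ 2⁻¹ ^ t * 2 ^ B :=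
    Wd_mem _ X _ close n₀ 1 h1
  rw [map_sub, Pi.sub_apply, Pi.sub_apply, hc'.kill (hX _ (Nat.lt_succ_self _)) n₀ 1 h1,
    wd_eig sy c eig X 1 c (fun _ _ _ => (one_mul _).symm) n₀ 1 h1, zero_sub, map_neg, norm_neg,
    mul_one, map_mul, norm_mul] at h2
  have h3 := lift_map (ι.symm : ℂ →+* Om) sy X
  rw [lt_div_iff₀ (by positivity)] at ht
  change ‖FreeAlgebra.lift ℤ (fun s => (ι.symm : ℂ →+* Om) (sy s)) X‖ < ε
  erw [← h3]
  exact lt_of_mul_lt_mul_right (h2.trans_lt ht) p0.le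

end Vale.Agent.N022
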