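import Vale.Agent.N022.Red2
import Vale.Agent.P022D.Th.All
import Vale.Agent.P022E.Top.Fin
import Vale.Agent.P022G.Top.Fin
import Vale.Agent.P022S.Top.Fin
import Vale.Agent.P022S.ExResH1
import Vale.Agent.P022K.CH.Final

/-!
# N022: residual classes, normal forms and the residual level in terms of traces
-/

set_option linter.all false

open NumberField Matrix

noncomputable section

namespace Vale.Agent.N022

open Vale.Agent.P022 Vale.Agent.P022.H567.Tw Vale.Agent.P022.H853 Vale.Agent.P022.H790.CT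
  Vale.Agent.P022D Vale.Agent.P022D.Dk Vale.Agent.P022D.Top Vale.Agent.P022D.End
open Vale.Agent.P022E.Top (NS Big)
open Vale.Agent.P022G.Top (Bal)
open Vale.Agent.P022S.Top (Sca)

/-- traces and determinants -/
def td {E : Type} [Field E] (r : GQ →* GL (Fin 2) E) : GQ ⊕ GQ → E :=
  Sum.elim (fun g => (r g : Matrix (Fin 2) (Fin 2) E).trace)
    fun g => (r g : Matrix (Fin 2) (Fin 2) E).det

section

variable {E E' E'' : Type} [NontriviallyNormedField E] [NontriviallyNormedField E']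
  [NontriviallyNormedField E''] {r : GQ →* GL (Fin 2) E} {s : GQ →* GL (Fin 2) E'}
  {t : GQ →* GL (Fin 2) E''}

/-- the same residual traces and determinants, up to an isomorphism of residue fields -/
def Sim (r : GQ →* GL (Fin 2) E) (s : GQ →* GL (Fin 2) E') : Prop :=
  ∀ X : FreeAlgebra ℤ (GQ ⊕ GQ),
    ‖FreeAlgebra.lift ℤ (td r) X‖ < 1 ↔ ‖FreeAlgebra.lift ℤ (td s) X‖ < 1

theorem Sim.symm (h : Sim r s) : Sim s r := fun X => (h X).symm

theorem Sim.tr (h : Sim r s) (g : GQ) (h1 : ‖(r g : Matrix (Fin 2) (Fin 2) E).trace‖ < 1) :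
    ‖(s g : Matrix (Fin 2) (Fin 2) E').trace‖ < 1 := by
  have := h (FreeAlgebra.ι ℤ (Sum.inl g))
  rw [FreeAlgebra.lift_ι_apply, FreeAlgebra.lift_ι_apply] at this
  exact this.1 h1

theorem Sim.det (h : Sim r s) (g : GQ) (n : ℕ)
    (h1 : ‖(r g : Matrix (Fin 2) (Fin 2) E).det ^ n - 1‖ < 1) :
    ‖(s g : Matrix (Fin 2) (Fin 2) E').det ^ n - 1‖ < 1 := by
  have := h (FreeAlgebra.ι ℤ (Sum.inr g) ^ n - 1)
  rw [map_sub, map_sub, map_pow, map_pow, map_one, map_one, FreeAlgebra.lift_ι_apply,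
    FreeAlgebra.lift_ι_apply] at this
  exact this.1 h1

theorem Sim.detOne (h : Sim r s) (h1 : DetOne r) : DetOne s := fun g => by
  simpa using h.det g 1 (by simpa using h1 g)

/-- the residual traces do not see the inertia groups at `l` -/
def TUnr (r : GQ →* GL (Fin 2) E) (l : ℕ) : Prop :=
  ∀ g, G.Inert l g → ∀ h, ‖(r (g * h) : Matrix (Fin 2) (Fin 2) E).trace -
    (r h : Matrix (Fin 2) (Fin 2) E).trace‖ < 1

/-- a good residual level, in terms of traces -/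
structure LevT (r : GQ →* GL (Fin 2) E) (N₀ : ℕ) [NeZero N₀] : Prop where
  odd : Odd N₀
  res : ResR N₀ r
  ram : ∀ l : ℕ, l.Prime → l ∣ N₀ → ¬ TUnr r l
  uni : ∀ l : ℕ, l.Prime → Uni r l → ¬ l ^ 2 ∣ N₀
  ns : NS r → N₀ ≠ 1

theorem Sim.ns (h : Sim r s) (h1 : NS r) : NS s := fun n => by
  obtain ⟨g, hg, h2⟩ := h1 n
  exact ⟨g, hg, fun h3 => h2 (h.symm.tr g h3)⟩

theorem Sim.lev (h : Sim r s) {N₀ : ℕ} [NeZero N₀] (h1 : LevT r N₀) : LevT s N₀ := by
  refine ⟨h1.odd, ?_, fun l hl hd hu => h1.ram l hl hd fun g hg k => ?_,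
    fun l hl hu => h1.uni l hl fun P hP hp g hg => h.symm.tr g (hu P hP hp g hg),
    fun h2 => h1.ns (h.symm.ns h2)⟩
  · obtain ⟨k, hk⟩ := h1.res
    refine ⟨k, fun φ hφ X hX => ?_⟩
    let f : Gen N₀ → FreeAlgebra ℤ (GQ ⊕ GQ) := fun y => FreeAlgebra.ι ℤ (Sum.map φ φ y)
    have e : ∀ {K : Type} [NontriviallyNormedField K] (u : GQ →* GL (Fin 2) K),
        FreeAlgebra.lift ℤ (td u) (FreeAlgebra.lift ℤ f X) = FreeAlgebra.lift ℤ (sys u φ) X := by
      intro K _ u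
      refine (lift_map (FreeAlgebra.lift ℤ (td u)).toRingHom f X).trans ?_
      congr 2
      funext y
      rcases y with l | l <;> exact FreeAlgebra.lift_ι_apply _ _
    rw [← e]
    exact (h _).1 (by rw [e]; exact hk φ hφ X hX)
  · have := h (FreeAlgebra.ι ℤ (Sum.inl (g * k)) - FreeAlgebra.ι ℤ (Sum.inl k))
    simp only [map_sub, FreeAlgebra.lift_ι_apply] at this
    exact this.2 (hu g hg k)

/-- `s` is a model of `r` over an extension -/
structure Md (r : GQ →* GL (Fin 2) E) (s : GQ →* GL (Fin 2) E') : Prop where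
  ex : ∃ j : E →+* E', (∀ x, ‖j x‖ = ‖x‖) ∧ ∀ y, td s y = j (td r y)
  one : ∀ g, s g = 1 ↔ r g = 1
  cont : Continuous s

theorem Md.trans (h : Md r s) (h' : Md s t) : Md r t := by
  obtain ⟨j, a, b⟩ := h.ex
  obtain ⟨j', a', b'⟩ := h'.ex
  exact ⟨⟨j'.comp j, fun x => (a' _).trans (a x), fun y => by rw [b', b]; rfl⟩,
    fun g => (h'.one g).trans (h.one g), h'.cont⟩

theorem md_cj (hc : Continuous r) (P : GL (Fin 2) E) : Md r (cj P r) :=
  ⟨⟨RingHom.id E, fun _ => rfl, by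
    rintro (g | g)
    · exact cj_trace _ _ g
    · exact cj_det _ _ g⟩, fun g => cj_eq_one _ _, cj_cont P hc⟩

theorem md_bc (E' : Type) [NontriviallyNormedField E'] [NormedAlgebra E E'] (hc : Continuous r) :
    Md r (bc E' r) :=
  ⟨⟨algebraMap E E', norm_algebraMap' E', by
    rintro (g | g)
    · exact H20.bc_trace r g
    · exact H20.bc_det r g⟩, fun g => H20.bc_eq_one, bc_cont E' hc⟩

theorem md_of [NormedAlgebra E E'] (hc : Continuous r) (P : GL (Fin 2) E') :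
    Md r (cj P (bc E' r)) := (md_bc E' hc).trans (md_cj (bc_cont E' hc) P)

theorem Md.sim (h : Md r s) : Sim r s := fun X => by
  obtain ⟨j, a, b⟩ := h.ex
  rw [funext b, ← lift_map, a]

theorem Md.odd (h : Md r s) (ho : OddRep r) : OddRep s := fun c hc => by
  obtain ⟨j, -, b⟩ := h.ex
  have h1 : td r (Sum.inr c) = -1 := ho c hc
  have := b (Sum.inr c)
  rwa [h1, map_neg, map_one] at this

theorem Md.unr (h : Md r s) {p : ℕ} : UnrAt s p ↔ UnrAt r p := by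
  unfold UnrAt
  simp only [h.one]

theorem Md.lim (h : Md r s) {N : ℕ} [NeZero N] (h1 : LimR N s) : LimR N r := by
  obtain ⟨j, a, b⟩ := h.ex
  intro φ hφ ε hε
  obtain ⟨k, hk⟩ := h1 φ hφ ε hε
  refine ⟨k, fun X hX => ?_⟩
  have e : sys s φ = fun y => j (sys r φ y) := by
    funext y
    rcases y with l | l
    · exact b (Sum.inl _)
    · exact b (Sum.inr _)
  have := hk X hX
  rwa [e, ← lift_map, a] at this

/-- the normal forms -/
def NF (s : GQ →* GL (Fin 2) E) : Prop :=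
  (∃ M, Mono s M) ∨ Big s ∨ (∃ M, Bal s M) ∨ Sca s

theorem NF.int (h : NF r) : ∀ g i j, ‖(r g : Matrix (Fin 2) (Fin 2) E) i j‖ ≤ 1 := by
  rcases h with ⟨M, h⟩ | h | ⟨M, h⟩ | h <;> exact h.int

theorem NF.bc (h : NF r) (E' : Type) [NontriviallyNormedField E'] [NormedAlgebra E E'] :
    NF (bc E' r) := by
  rcases h with ⟨M, h⟩ | h | ⟨M, h⟩ | h
  · exact Or.inl ⟨M, h.bc E'⟩
  · exact Or.inr (Or.inl (h.ext E'))
  · exact Or.inr (Or.inr (Or.inl ⟨M, h.ext E'⟩))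
  · exact Or.inr (Or.inr (Or.inr (h.ext E')))

variable [IsUltrametricDist E]

theorem nad {x y : E} (hx : ‖x‖ < 1) (hy : ‖y‖ < 1) : ‖x + y‖ < 1 :=
  (IsUltrametricDist.norm_add_le_max _ _).trans_lt (max_lt hx hy)

theorem tr_mul (g h : GQ) : (r (g * h) : Matrix (Fin 2) (Fin 2) E).trace =
    (r g).1 0 0 * (r h).1 0 0 + (r g).1 0 1 * (r h).1 1 0 +
      ((r g).1 1 0 * (r h).1 0 1 + (r g).1 1 1 * (r h).1 1 1) := by
  rw [map_mul, Units.val_mul, Matrix.trace_fin_two, Matrix.mul_apply, Matrix.mul_apply,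
    Fin.sum_univ_two, Fin.sum_univ_two]

theorem LevT.lev (hi : ∀ g i j, ‖(r g : Matrix (Fin 2) (Fin 2) E) i j‖ ≤ 1) {N₀ : ℕ} [NeZero N₀]
    (h : LevT r N₀) : Lev r N₀ := by
  refine ⟨h.odd, h.res, fun l hl hd hu => h.ram l hl hd fun g hg k => ?_, h.uni⟩
  have a := hu g hg
  have e : (r (g * k) : Matrix (Fin 2) (Fin 2) E).trace - (r k).1.trace =
      (r k).1 0 0 * ((r g).1 - 1) 0 0 + (r k).1 1 0 * ((r g).1 - 1) 0 1 +
        ((r k).1 0 1 * ((r g).1 - 1) 1 0 + (r k).1 1 1 * ((r g).1 - 1) 1 1) := by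
    rw [tr_mul, Matrix.trace_fin_two]
    simp [Matrix.sub_apply]
    ring
  rw [e]
  exact nad (nad (mlt (hi _ _ _) (a _ _)) (mlt (hi _ _ _) (a _ _)))
    (nad (mlt (hi _ _ _) (a _ _)) (mlt (hi _ _ _) (a _ _)))

theorem reg_key (hi : ∀ g i j, ‖(r g : Matrix (Fin 2) (Fin 2) E) i j‖ ≤ 1) {g g₀ : GQ}
    (hT : ∀ h, ‖(r (g * h) : Matrix (Fin 2) (Fin 2) E).trace - (r h).1.trace‖ < 1)
    (h01 : ‖(r g₀).1 0 1‖ < 1) (h10 : ‖(r g₀).1 1 0‖ < 1)
    (hd : ‖(r g₀).1 0 0 - (r g₀).1 1 1‖ = 1) :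
    ‖(r g).1 0 0 - 1‖ < 1 ∧ ‖(r g).1 1 1 - 1‖ < 1 ∧
      ∀ h, ‖(r g).1 1 0 * (r h).1 0 1‖ < 1 ∧ ‖(r g).1 0 1 * (r h).1 1 0‖ < 1 := by
  have t1 := hT 1
  rw [mul_one, map_one, Units.val_one, Matrix.trace_one, Matrix.trace_fin_two] at t1
  have a : ‖(r g).1 0 0 - 1‖ < 1 := by
    have := nlt (nlt (nlt (hT g₀) (mlt (hi g₀ 1 1) t1)) (mlt (hi g 0 1) h10)) (mlt (hi g 1 0) h01)
    rw [tr_mul, Matrix.trace_fin_two] at this
    rw [← mul_one ‖_‖, ← hd, ← norm_mul]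
    convert this using 2
    simp
    ring
  have d : ‖(r g).1 1 1 - 1‖ < 1 := by
    convert nlt t1 a using 2
    simp
    ring
  have S : ∀ h, ‖(r g).1 0 1 * (r h).1 1 0 + (r g).1 1 0 * (r h).1 0 1‖ < 1 := fun h => by
    have := nlt (nlt (hT h) (mlt (hi h 0 0) a)) (mlt (hi h 1 1) d)
    rw [tr_mul, Matrix.trace_fin_two] at this
    convert this using 2
    ring
  refine ⟨a, d, fun h => ?_⟩
  have c : ‖(r g).1 1 0 * (r h).1 0 1‖ < 1 := by
    have := nlt (nlt (nlt (S (g₀ * h)) (mlt (hi g₀ 1 1) (S h)))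
      (mlt (mle (hi g 0 1) (hi h 0 0)) h10)) (mlt (mle (hi g 1 0) (hi h 1 1)) h01)
    rw [map_mul, Units.val_mul, Matrix.mul_apply, Matrix.mul_apply, Fin.sum_univ_two,
      Fin.sum_univ_two] at this
    rw [← mul_one ‖_‖, ← hd, ← norm_mul]
    convert this using 2
    ring
  refine ⟨c, ?_⟩
  convert nlt (S h) c using 2
  ring

theorem ent_of {A : Matrix (Fin 2) (Fin 2) E} (a : ‖A 0 0 - 1‖ < 1) (b : ‖A 0 1‖ < 1)
    (c : ‖A 1 0‖ < 1) (d : ‖A 1 1 - 1‖ < 1) (i j : Fin 2) : ‖(A - 1) i j‖ < 1 := by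
  fin_cases i <;> fin_cases j
  · simpa using a
  · simpa using b
  · simpa using c
  · simpa using d

variable [NormedAlgebra ℚ_[2] E]

theorem NF.runr (h : NF r) (hd : DetOne r) {l : ℕ} (hT : TUnr r l) : RUnr r l := by
  intro g hg
  have mo : ∀ M : Subgroup GQ, (∀ g ∈ M, ‖(r g).1 0 1‖ < 1 ∧ ‖(r g).1 1 0‖ < 1) →
      (∀ g, g ∉ M → ‖(r g).1 0 0‖ < 1 ∧ ‖(r g).1 1 1‖ < 1) → ‖(r g).1 0 0 - 1‖ < 1 →
      ‖(r g).1 1 1 - 1‖ < 1 → ∀ i j, ‖((r g).1 - 1) i j‖ < 1 := by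
    intro M h1 h2 a d
    by_cases hM : g ∈ M
    · exact ent_of a (h1 g hM).1 (h1 g hM).2 d
    · exact absurd (norm_one_of a) (h2 g hM).1.ne
  have hi := h.int
  rcases h with ⟨M, h⟩ | h | ⟨M, h⟩ | h
  · obtain ⟨g₀, m, -, e⟩ := h.reg
    obtain ⟨a, d, -⟩ := reg_key hi (hT g hg) (h.dia g₀ m).1 (h.dia g₀ m).2 e
    exact mo M h.dia h.ant a d
  · obtain ⟨g₀, e1, e2, e⟩ := h.reg
    obtain ⟨a, d, k⟩ := reg_key hi (hT g hg) e1 e2 e
    obtain ⟨g₁, u⟩ := h.up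
    obtain ⟨g₂, v⟩ := h.lo
    exact ent_of a (by simpa [v] using (k g₂).2) (by simpa [u] using (k g₁).1) d
  · obtain ⟨g₀, -, e1, e2, e⟩ := h.reg
    obtain ⟨a, d, -⟩ := reg_key hi (hT g hg) (by simp [e1]) (by simp [e2]) e
    exact mo M h.dia h.ant a d
  · have a : ‖(r g).1 0 0 - 1‖ < 1 := by
      refine norm_lt_of_sq ?_
      have := nad (nad (hd g) (mlt (hi g 0 0) (h.dg g))) (mlt (hi g 0 1) (h.lo g))
      rw [Matrix.det_fin_two] at this
      convert this using 2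
      ring
    refine ent_of a (h.up g) (h.lo g) ?_
    convert nlt a (h.dg g) using 2
    ring

theorem NF.levT (h : NF r) (hd : DetOne r) {N₀ : ℕ} [NeZero N₀] (h1 : Lev r N₀)
    (h2 : NS r → N₀ ≠ 1) : LevT r N₀ :=
  ⟨h1.odd, h1.res, fun l hl hN hT => h1.ram l hl hN (h.runr hd hT), h1.uni, h2⟩

omit [IsUltrametricDist E] in
theorem not_ns {k : Type} [Field k] [CharP k 2] {ρ : GQ →* GL (Fin 2) k} (hr : St.IsRes r ρ)
    (hs : Group.IsSolvable ρ.range) : ¬ NS r := by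
  intro h
  obtain ⟨O, π, hO, ht⟩ := hr
  obtain ⟨n, hn⟩ := hs
  obtain ⟨g, hg, h1⟩ := h n
  have h2 := map_derivedSeries_le_derivedSeries ρ.rangeRestrict n (Subgroup.mem_map_of_mem _ hg)
  rw [hn, Subgroup.mem_bot] at h2
  have h3 : ρ g = 1 := congrArg Subtype.val h2
  obtain ⟨t, d, a, -, b, -⟩ := ht g
  rw [h3, Units.val_one, Matrix.trace_one, Fintype.card_fin, Nat.cast_ofNat,
    CharTwo.two_eq_zero] at b
  exact h1 (a ▸ P022E.Br.small_of O hO π t b)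

end

/-- **every irreducible representation has a model in normal form** -/
theorem nf (hK : P022K.CH.SERRE) {E : Type} [NontriviallyNormedField E] [NormedAlgebra ℚ_[2] E]
    [FiniteDimensional ℚ_[2] E] {r : GQ →* GL (Fin 2) E} (hc : Continuous r) (ho : OddRep r)
    (hi : St.AbsIrr r) : ∃ (E' : Type) (_ : NontriviallyNormedField E')
      (_ : NormedAlgebra ℚ_[2] E') (_ : IsUltrametricDist E') (_ : FiniteDimensional ℚ_[2] E')
      (s : GQ →* GL (Fin 2) E'), Md r s ∧ NF s ∧ (DetOne r →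
        {p : ℕ | p.Prime ∧ ¬ UnrAt r p}.Finite → ∃ (N₀ : ℕ) (_ : NeZero N₀), LevT s N₀) := by
  haveI : IsUltrametricDist E := IsUltrametricDist.of_normedAlgebra ℚ_[2]
  haveI : CharZero E := charZero_of_injective_algebraMap (algebraMap ℚ_[2] E).injective
  obtain ⟨k₀, _, _, _, ρ₀, hr₀⟩ := P022S.H1.exRes E r hc
  obtain ⟨k, _, _, ρ, hr, hs⟩ : ∃ (k : Type) (_ : Field k) (_ : CharP k 2)
      (ρ : GQ →* GL (Fin 2) k), St.IsRes r ρ ∧ (Group.IsSolvable ρ.range ∨ St.Serre ρ) :=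
    ⟨_, _, inferInstance, P022K.CH.res_cases hK hc hr₀⟩
  have fin : ∀ {E' : Type} [NontriviallyNormedField E'] {s : GQ →* GL (Fin 2) E'}, Md r s →
      {p : ℕ | p.Prime ∧ ¬ UnrAt r p}.Finite → {p : ℕ | p.Prime ∧ ¬ UnrAt s p}.Finite :=
    fun h h1 => by simpa only [h.unr] using h1
  by_cases hv : Group.IsSolvable ρ.range
  swap
  · obtain ⟨E', i1, i2, i3, i4, i5, i6, P, hP⟩ := P022E.Dk.model (P022E.Dk.trB_of r ρ hr hv)
    have m := md_of hc P
    refine ⟨E', i1, i2, i3, i4, _, m, Or.inr (Or.inl hP), fun hd _ => ?_⟩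
    obtain ⟨N₀, i, h1, h2⟩ := P022E.Br.lev_of hr
      (P022E.Br.absIrr_of ρ (P022E.Br.irrCyc_of ρ hv)) (hs.resolve_left hv) _ (fun _ => 1)
      (fun g => by rw [cj_trace, H20.bc_trace, one_mul])
      (fun g => by rw [cj_det, H20.bc_det, one_pow, one_mul]) hP.int (m.sim.detOne hd)
    exact ⟨N₀, i, NF.levT (Or.inr (Or.inl hP)) (m.sim.detOne hd) h2 fun _ => h1⟩
  have nn : ∀ {E' : Type} [NontriviallyNormedField E'] {s : GQ →* GL (Fin 2) E'}, Md r s →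
      ∀ N₀ : ℕ, NS s → N₀ ≠ 1 := fun h _ h1 => absurd (h.sim.symm.ns h1) (not_ns hr hv)
  by_cases h8 : St.IrrCyc ρ
  · obtain ⟨M, g₀, h⟩ := trD_of r ρ hr hv h8
    obtain ⟨E', i1, i2, i3, i4, i5, i6, P, hP⟩ := model hc h
    have m := md_of hc P
    refine ⟨E', i1, i2, i3, i4, _, m, Or.inl ⟨M, hP⟩, fun hd hf => ?_⟩
    obtain ⟨N₀, i, h2⟩ := Th.th0 E' _ M m.cont (fin m hf) hP (m.sim.detOne hd)
    exact ⟨N₀, i, NF.levT (Or.inl ⟨M, hP⟩) (m.sim.detOne hd) h2 (nn m _)⟩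
  have bal : ∀ (E' : Type) [NontriviallyNormedField E'] [NormedAlgebra ℚ_[2] E']
      [IsUltrametricDist E'] [FiniteDimensional ℚ_[2] E'] (s : GQ →* GL (Fin 2) E') (M), Md r s →
      Bal s M → Md r s ∧ NF s ∧ (DetOne r → {p : ℕ | p.Prime ∧ ¬ UnrAt r p}.Finite →
        ∃ (N₀ : ℕ) (_ : NeZero N₀), LevT s N₀) := by
    intro E' _ _ _ _ s M m hP
    refine ⟨m, Or.inr (Or.inr (Or.inl ⟨M, hP⟩)), fun hd hf => ?_⟩
    obtain ⟨N₀, i, h2⟩ := P022G.Top.thG E' _ M m.cont (fin m hf) hP (m.sim.detOne hd)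
    exact ⟨N₀, i, NF.levT (Or.inr (Or.inr (Or.inl ⟨M, hP⟩))) (m.sim.detOne hd) h2 (nn m _)⟩
  obtain ⟨O, π, hO, ht⟩ := hr
  have hsm : ∀ t : O, π t = 0 → ‖(t : E)‖ < 1 := fun t => P022E.Br.small_of O hO π t
  by_cases h1 : ∃ g, (ρ g : Matrix (Fin 2) (Fin 2) k).trace ≠ 0
  · haveI hc2 : CharP (AlgebraicClosure k) 2 :=
      charP_of_injective_algebraMap (algebraMap k (AlgebraicClosure k)).injective 2
    rcases P022G.Tri.two_res ρ h8 h1 with ⟨a, d, g₀, had, h0, hne⟩ |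
      ⟨M, g₀, h2, hcy, h0, hc₀, hn₀⟩
    · obtain ⟨E', i1, i2, i3, i4, i5, i6, P, ι, hP⟩ := P022F.Nf.model hc hi O
        ((algebraMap k (AlgebraicClosure k)).comp π) hO a d (fun g => by
          obtain ⟨x, y, a1, a2, a3, a4⟩ := ht g
          refine ⟨x, y, a1, a2, ?_, ?_⟩
          · rw [RingHom.comp_apply, a3, ← (had g).1, H20.bc_trace]
          · rw [RingHom.comp_apply, a4, ← (had g).2, H20.bc_det]) hne
      haveI : FiniteDimensional E E' := Module.Finite.of_restrictScalars_finite ℚ_[2] E E'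
      have m := md_of hc P
      obtain ⟨E'', j1, j2, j3, j4, j5, j6, Q, hQ⟩ := P022G.Top.bal_nf m.cont hP h0 hne (by
        obtain ⟨g, hg⟩ := P022F.Nf.ne_of_irr hi (P * P022S.Top.sw E')
        refine ⟨g, fun e => hg ?_⟩
        rw [← cj_cj, P022S.Top.sw_ent]
        exact e)
      exact ⟨E'', j1, j2, j3, j4, _, bal E'' _ ⊤ (m.trans (md_of m.cont Q)) hQ⟩
    · have hT : P022G.Top.TrE r M g₀ := by
        refine ⟨fun g => ?_, fun g => ?_, h2, fun g hg => ?_, hcy _ hc₀, hc₀, ?_, ?_, hcy⟩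
        · obtain ⟨t, d, a, -, -, -⟩ := ht g
          exact a ▸ (hO _).1 t.2
        · obtain ⟨t, d, -, a, -, -⟩ := ht g
          exact a ▸ (hO _).1 d.2
        · obtain ⟨t, d, a, -, b, -⟩ := ht g
          have h3 := h0 g hg
          rw [H20.bc_trace, map_eq_zero] at h3
          exact a ▸ hsm t (b.trans h3)
        · obtain ⟨t, d, a, -, b, -⟩ := ht g₀
          rw [← a]
          refine le_antisymm ((hO _).1 t.2) (not_lt.1 fun h3 => hn₀ ?_)
          rw [H20.bc_trace, ← b, H315.Sv.pi_small O hO π t h3, map_zero]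
        · by_contra hn
          push Not at hn
          rw [(Subgroup.eq_top_iff' M).2 hn, Subgroup.index_top] at h2
          exact absurd h2 (by norm_num)
      obtain ⟨E', i1, i2, i3, i4, i5, i6, P, hP⟩ := P022G.Top.modelE hc hT
      exact ⟨E', i1, i2, i3, i4, _, bal E' _ M (md_of hc P) hP⟩
  · have hI := P022S.Top.ir_of ho hi
    have t0 : ∀ g, ‖(r g : Matrix (Fin 2) (Fin 2) E).trace‖ < 1 := fun g => by
      obtain ⟨t, d, a, -, b, -⟩ := ht g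
      exact a ▸ hsm t (b.trans (not_not.1 fun h => h1 ⟨g, h⟩))
    obtain ⟨P, hP⟩ := P022S.Top.latt hc hI
    have m1 := md_cj hc P
    obtain ⟨E', i1, i2, i3, i4, i5, i6, Q, hQ, lo⟩ := P022S.Top.tri hP
      fun g => m1.sim.tr g (t0 g)
    have m2 := m1.trans (md_of m1.cont Q)
    obtain ⟨E'', j1, j2, j3, j4, j5, j6, R, hR⟩ := P022S.Top.sca_lo m2.cont
      (((hI.cj P).bc E').cj Q) hQ (fun g => m2.sim.tr g (t0 g)) lo
    have m := m2.trans (md_of m2.cont R)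
    exact ⟨E'', j1, j2, j3, j4, _, m, Or.inr (Or.inr (Or.inr hR)), fun hd _ => ⟨1 * 1,
      inferInstance, NF.levT (Or.inr (Or.inr (Or.inr hR))) (m.sim.detOne hd)
        (P022S.Top.lev1 hR (m.sim.detOne hd)) (nn m _)⟩⟩

end Vale.Agent.N022
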