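import Vale.Agent.N022.BrO
import Vale.Agent.P022K.Top.Full
import Vale.Agent.P022K.Top.Serre
import Vale.Agent.P022K.PM.Pmx

/-!
# N022: the results
-/

set_option linter.all false

open scoped MatrixGroups NumberField
open Matrix Polynomial

noncomputable section

namespace Vale.Agent.N022

open Vale.Agent.P022 Vale.Agent.P022D.Top

theorem cores : Cores :=
  ⟨P022D.Top.core P022D.As.l2 P022D.Fm.formsC fun O _ _ =>
      P022D.V.clad O (P022D.V.cla O) (P022D.V.lift O) (P022D.V.All.div O),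
    P022E.Top.coreC (P022E.As.l2 P022E.GW.selC) P022E.Fm.formsC,
    P022G.Top.core P022G.l2hC P022G.Ps.tr0C,
    P022S.Top.core fun E _ _ _ _ _ r U X as N _ f =>
      P022S.H86.mid P022S.H12.l2xC E r U X as N f f.omX,
    P022K.Top.serre_pmx P022K.PM.pmx⟩

/-- one level for all representations with traces and determinants in `𝔽_(2^f)` residually -/
theorem uni {S : Finset ℕ} (hS : OddS S) {f : ℕ} (hf : 0 < f) : ∃ (N : ℕ) (_ : NeZero N),
    Odd N ∧ N.primeFactors = S ∧ ∀ (E : Type) [NontriviallyNormedField E] [NormedAlgebra ℚ_[2] E]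
      [FiniteDimensional ℚ_[2] E] (r : GQ →* GL (Fin 2) E), Continuous r → OddRep r → UnrS S r →
      (∀ y, ‖td r y ^ 2 ^ f - td r y‖ < 1) → Occurs E N r := by
  obtain ⟨C, hC, h1⟩ := fin_kr hS (q := 2 ^ f) (Nat.one_lt_two_pow hf.ne')
  obtain ⟨N, _, hN, h2⟩ := fin_class cores hS (2 ^ (f - 1) - 1) hC
  have hM := hN.mul hS.inS
  haveI : NeZero (N * ∏ l ∈ S, l) := ⟨(hM.odd hS).pos.ne'⟩
  refine ⟨N * ∏ l ∈ S, l, inferInstance, hM.odd hS, ?_, fun E _ _ _ r hc ho hu h =>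
    occ_raise hc (dvd_mul_right _ _) (h2 E r hc ho hu ⟨h1 E r hc hu h, fun g => ?_⟩)⟩
  · ext p
    rw [Nat.mem_primeFactors]
    exact ⟨fun h => hM p h.1 h.2.1, fun h => ⟨(hS p h).1,
      (Finset.dvd_prod_of_mem (fun l => l) h).mul_left N, NeZero.ne _⟩⟩
  · have e : 2 * (2 ^ (f - 1) - 1) + 1 + 1 = 2 ^ f := by
      obtain ⟨n, rfl⟩ : ∃ n, f = n + 1 := ⟨f - 1, by omega⟩
      have := Nat.one_le_two_pow (n := n)
      rw [Nat.add_sub_cancel, pow_succ]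
      omega
    have h3 : ‖(r g : Matrix (Fin 2) (Fin 2) E).det ^ 2 ^ f -
      (r g : Matrix (Fin 2) (Fin 2) E).det‖ < 1 := h (Sum.inr g)
    have h4 : ‖(r g⁻¹ : Matrix (Fin 2) (Fin 2) E).det‖ ≤ 1 := td_le hc (Sum.inr g⁻¹)
    have h5 : (r g : Matrix (Fin 2) (Fin 2) E).det * (r g⁻¹ : Matrix (Fin 2) (Fin 2) E).det = 1 := by
      rw [← det_mul, ← Units.val_mul, ← map_mul, mul_inv_cancel, map_one, Units.val_one, det_one]
    rw [← e, pow_succ] at h3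
    generalize (r g : Matrix (Fin 2) (Fin 2) E).det ^ (2 * (2 ^ (f - 1) - 1) + 1) = u at h3 ⊢
    have e2 : u - 1 = (u * (r g : Matrix (Fin 2) (Fin 2) E).det -
        (r g : Matrix (Fin 2) (Fin 2) E).det) * (r g⁻¹ : Matrix (Fin 2) (Fin 2) E).det := by
      linear_combination (1 - u) * h5
    rw [e2, norm_mul]
    exact mul_lt_one_of_nonneg_of_lt_one_left (norm_nonneg _) h3 h4

section

variable {E : Type} [NontriviallyNormedField E] [NormedAlgebra ℚ_[2] E] [FiniteDimensional ℚ_[2] E]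

theorem ex_f : ∃ f : ℕ, 0 < f ∧ ∀ x : E, ‖x‖ ≤ 1 → ‖x ^ 2 ^ f - x‖ < 1 := by
  haveI : IsUltrametricDist E := IsUltrametricDist.of_normedAlgebra ℚ_[2]
  haveI := Fintype.ofFinite (IsLocalRing.ResidueField (Ob E))
  obtain ⟨n, -, hn⟩ := FiniteField.card (IsLocalRing.ResidueField (Ob E)) 2
  refine ⟨n, n.pos, fun x hx => ?_⟩
  have h := (res_Ob (x := (⟨x, mem_Ob.2 hx⟩ : Ob E) ^ 2 ^ (n : ℕ) - ⟨x, mem_Ob.2 hx⟩)).1 (by
    rw [map_sub, map_pow, ← hn, FiniteField.pow_card, sub_self])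
  exact h

theorem q1_all {r : GQ →* GL (Fin 2) E} (hc : Continuous r) (ho : OddRep r)
    (hS : {p : ℕ | p.Prime ∧ ¬ UnrAt r p}.Finite) : Q1Concl E r := by
  by_cases hi : St.AbsIrr r
  · obtain ⟨N, _, h1, h2, h3⟩ := P022K.Top.q1_of cores.k E r hc ho hi hS
    exact ⟨N, inferInstance, h1, h2, occ_lim hc h3.1 (limR_of_st h3)⟩
  · exact q1_red hc ho hi hS

variable [Algebra ℤ_[2] E] [IsScalarTower ℤ_[2] ℚ_[2] E]

theorem c_odd (r : D.Rep E) (N : ℕ) (hN : Odd N) (h : D.Occurs r N) : D.IsOdd r := by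
  haveI : NeZero N := ⟨hN.pos.ne'⟩
  exact D.odd_iff.2 (odd_of_occurs r.cont (St.occurs N r.hom ((D.occ_iff r N).1 h)))

theorem c_iff (r : D.Rep E) : D.Q1 r ↔ D.IsOdd r ∧ D.FinRam r := by
  constructor
  · rintro ⟨N, h1, -, h3⟩
    refine ⟨c_odd r N h1 h3, ⟨(2 * N).primeFactors.finite_toSet.subset fun p hp => ?_⟩⟩
    by_contra hn
    refine hp.2 (h3.unr p hp.1 fun hd => hn ?_)
    exact Nat.mem_primeFactors.2 ⟨hp.1, hd, by have := h1.pos; omega⟩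
  · rintro ⟨h1, ⟨h2⟩⟩
    simp only [D.unr_iff] at h2
    obtain ⟨N, _, a, b, c⟩ := q1_all r.cont (D.odd_iff.1 h1) h2
    exact ⟨N, a, fun p hp hd h => b p hp hd (D.unr_iff.1 h), (D.occ_iff r N).2 c⟩

theorem c_fix {S : Finset ℕ} (hS : OddS S) : ∃ N : ℕ, Odd N ∧ N.primeFactors = S ∧
    ∀ r : D.Rep E, D.Occurs r N ↔ D.IsOdd r ∧ D.Away r S := by
  obtain ⟨f, hf, h⟩ := ex_f (E := E)
  obtain ⟨N, _, h1, h2, h3⟩ := uni hS hf
  refine ⟨N, h1, h2, fun r => ⟨fun h => ⟨c_odd r N h1 h, ⟨fun p hp a b => h.unr p hp fun hd => ?_⟩⟩,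
    fun ⟨a, b⟩ => (D.occ_iff r N).2 (h3 E r.hom r.cont (D.odd_iff.1 a) (D.away_iff.1 b)
      fun y => h _ (td_le r.cont y))⟩⟩
  rcases (Nat.Prime.dvd_mul hp).1 hd with h4 | h4
  · exact a ((Nat.prime_dvd_prime_iff_eq hp Nat.prime_two).1 h4)
  · exact b (h2 ▸ Nat.mem_primeFactors.2 ⟨hp, h4, h1.pos.ne'⟩)

theorem c_triv {S : Finset ℕ} (hS : OddS S) (r : D.Rep E) (ho : D.IsOdd r) (hu : D.Away r S)
    (h : D.Nil r X (X - 1)) : D.Occurs r ((∏ p ∈ S, p) ^ 2) := by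
  haveI : NeZero (∏ l ∈ S, l) := ⟨(hS.inS.odd hS).pos.ne'⟩
  have h1 := h.nil
  simp only [map_sub, map_one, aeval_X, D.nil_iff] at h1
  exact (D.occ_iff r _).2 (triv cores hS rfl r.cont (D.odd_iff.1 ho) (D.away_iff.1 hu)
    (fun g => (h1 g).1) fun g => (h1 g).2)

end

theorem c_uni {S : Finset ℕ} (hS : OddS S) {f : ℕ} (hf : 0 < f) : ∃ N : ℕ, Odd N ∧
    N.primeFactors = S ∧ ∀ (E : Type) [Field E] [Algebra ℚ_[2] E] [TopologicalSpace E]
      [Algebra ℤ_[2] E], D.Ext E → ∀ r : D.Rep E, D.IsOdd r → D.Away r S →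
        D.Nil r (X ^ 2 ^ f - X) (X ^ 2 ^ f - X) → D.Occurs r N := by
  obtain ⟨N, _, h1, h2, h3⟩ := uni hS hf
  refine ⟨N, h1, h2, D.transport fun E _ _ _ _ _ r ho hu h => (D.occ_iff r N).2
    (h3 E r.hom r.cont (D.odd_iff.1 ho) (D.away_iff.1 hu) ?_)⟩
  have h4 := h.nil
  simp only [map_sub, map_pow, aeval_X, D.nil_iff] at h4
  rintro (g | g)
  · exact (h4 g).1
  · exact (h4 g).2

end Vale.Agent.N022
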