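import Vale.Agent.N022.Main

/-!
P022, Question 1 and more. `E` is a finite extension of `ℚ₂`, `r : Gal(ℚ̄/ℚ) → GL₂(E)` is
continuous, `S` is a finite set of odd primes.
(0) `T_ℓ` and `ℓ S_ℓ` are well defined elements of `𝕋₂(N)`.
(1) Question 1.
(2) The conclusion of Question 1 holds exactly for the odd, finitely ramified `r`, reducible or
not; what occurs at an odd level is odd.
(3) One level `N` with prime divisors `S` at which occur exactly the odd `r` unramified outside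
`S` and two.
(4) Residually trivial `r` occur at level `(∏ S)²`.
(5) The level of (3) depends only on `S` and on a finite field `𝔽_(2^f)` which contains the
residual traces and determinants, not on `E`.
-/

open Polynomial Vale.Agent.N022 Vale.Agent.N022.D

namespace Vale.Agent.N022.OldUniformLevel

theorem uniform_level :
    (∀ N ℓ : ℕ, Odd N → ℓ.Prime → ¬ ℓ ∣ 2 * N →
      (∃! x, El N (IsT N ℓ) x) ∧ ∃! x, El N (IsS N ℓ) x) ∧
    (∀ (E : Type) [Field E] [Algebra ℚ_[2] E] [TopologicalSpace E] [Algebra ℤ_[2] E], Ext E →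
      (∀ r : Rep E, IsOdd r → AbsIrr r → FinRam r → Q1 r) ∧
      (∀ r : Rep E, (Q1 r ↔ IsOdd r ∧ FinRam r) ∧ ∀ N : ℕ, Odd N → Occurs r N → IsOdd r) ∧
      ∀ S : Finset ℕ, (∀ p ∈ S, p.Prime ∧ p ≠ 2) →
        (∃ N : ℕ, Odd N ∧ N.primeFactors = S ∧
          ∀ r : Rep E, Occurs r N ↔ IsOdd r ∧ Away r S) ∧
        ∀ r : Rep E, IsOdd r → Away r S → Nil r X (X - 1) → Occurs r ((∏ p ∈ S, p) ^ 2)) ∧
    ∀ S : Finset ℕ, (∀ p ∈ S, p.Prime ∧ p ≠ 2) → ∀ f : ℕ, 0 < f → ∃ N : ℕ, Odd N ∧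
      N.primeFactors = S ∧ ∀ (E : Type) [Field E] [Algebra ℚ_[2] E] [TopologicalSpace E]
        [Algebra ℤ_[2] E], Ext E → ∀ r : Rep E, IsOdd r → Away r S →
          Nil r (X ^ 2 ^ f - X) (X ^ 2 ^ f - X) → Occurs r N :=
  ⟨fun _ _ h => el_unique h.pos.ne',
    transport fun _ _ _ _ _ _ => ⟨fun r a _ b => (c_iff r).2 ⟨a, b⟩,
      fun r => ⟨c_iff r, c_odd r⟩, fun _ hS => ⟨c_fix hS, c_triv hS⟩⟩,
    fun _ hS _ => c_uni hS⟩

end Vale.Agent.N022.OldUniformLevel
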