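import Vale.Agent.N022.Drop
import Vale.Agent.P022F.Eis

/-!
# N022: sums of two characters are limits of Eisenstein systems
-/

set_option linter.all false

open NumberField Matrix

noncomputable section

namespace Vale.Agent.N022

open Vale.Agent.P022 Vale.Agent.P022.H567.Tw Vale.Agent.P022.H853 Vale.Agent.P022.H790.CT
  Vale.Agent.P022D.Dk Vale.Agent.P022D.Top Vale.Agent.P022D.End

/-! ### functionals on words -/

section

variable {N : ℕ} [NeZero N] (φ : PA N → GQ)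

/-- the universal reducible system -/
def Phi : FreeAlgebra ℤ (Gen N) →ₐ[ℤ] MonoidAlgebra ℤ (GQ × GQ) :=
  FreeAlgebra.lift ℤ (Sum.elim
    (fun ℓ => MonoidAlgebra.of ℤ (GQ × GQ) (φ ℓ, 1) + MonoidAlgebra.of ℤ (GQ × GQ) (1, φ ℓ))
    fun ℓ => MonoidAlgebra.of ℤ (GQ × GQ) (φ ℓ, φ ℓ))

variable {K : Type} [NormedField K]

/-- the value of a function on an element of the group ring -/
def ev (F : GQ × GQ → K) (y : MonoidAlgebra ℤ (GQ × GQ)) : K :=
  ∑ g ∈ y.coeff.support, (y.coeff g : K) * F g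

/-- the functional of `F` is continuous on the Hecke algebra -/
def Gd (F : GQ × GQ → K) : Prop :=
  ∀ ε : ℝ, 0 < ε → ∃ k : ℕ, ∀ x : FreeAlgebra ℤ (Gen N),
    (∀ i < k, FreeAlgebra.lift ℤ (fun s => gHk N s i) x = 0) → ‖ev F (Phi φ x)‖ < ε

/-- the system of a sum of two characters -/
def sy2 (α β : GQ →* Kˣ) : Gen N → K :=
  Sum.elim (fun ℓ => (α (φ ℓ) : K) + β (φ ℓ)) fun ℓ => (α (φ ℓ) : K) * β (φ ℓ)

theorem ev_hom (α β : GQ →* Kˣ) (x : FreeAlgebra ℤ (Gen N)) :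
    ev (fun g => (α g.1 : K) * β g.2) (Phi φ x) = FreeAlgebra.lift ℤ (sy2 φ α β) x := by
  let w : GQ × GQ →* K := (Units.coeHom K).comp
    (α.comp (MonoidHom.fst GQ GQ) * β.comp (MonoidHom.snd GQ GQ))
  have hw : ∀ g, w g = (α g.1 : K) * β g.2 := fun _ => rfl
  have h1 : ∀ y, ev (fun g => (α g.1 : K) * β g.2) y = MonoidAlgebra.lift ℤ K _ w y := by
    intro y
    rw [MonoidAlgebra.lift_apply', Finsupp.sum]
    exact Finset.sum_congr rfl fun g _ => by rw [hw, eq_intCast]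
  rw [h1]
  refine (lift_map (MonoidAlgebra.lift ℤ K _ w).toRingHom _ x).trans ?_
  congr 2
  funext s
  rcases s with ℓ | ℓ
  · change MonoidAlgebra.lift ℤ K _ w (_ + _) = _
    rw [map_add, MonoidAlgebra.lift_of, MonoidAlgebra.lift_of, hw, hw]
    simp [sy2]
  · change MonoidAlgebra.lift ℤ K _ w (MonoidAlgebra.of ℤ _ _) = _
    rw [MonoidAlgebra.lift_of, hw]
    rfl

theorem gd_iff (α β : GQ →* Kˣ) :
    Gd φ (fun g => (α g.1 : K) * β g.2) ↔ Lim N (sy2 φ α β) := by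
  unfold Gd Lim
  simp only [ev_hom]

variable {φ}

theorem Gd.smul (c : K) {F : GQ × GQ → K} (h : Gd φ F) : Gd φ fun g => c * F g := by
  intro ε hε
  have h0 : 0 < ‖c‖ + 1 := by positivity
  obtain ⟨k, hk⟩ := h (ε / (‖c‖ + 1)) (by positivity)
  refine ⟨k, fun x hx => ?_⟩
  have h1 := hk x hx
  have e : ev (fun g => c * F g) (Phi φ x) = c * ev F (Phi φ x) := by
    rw [ev, ev, Finset.mul_sum]
    exact Finset.sum_congr rfl fun g _ => by ring
  rw [lt_div_iff₀ h0] at h1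
  rw [e, norm_mul]
  nlinarith [norm_nonneg c, norm_nonneg (ev F (Phi φ x))]

theorem gd_zero : Gd φ fun _ => (0 : K) := fun ε hε => ⟨0, fun x _ => by simpa [ev] using hε⟩

variable [IsUltrametricDist K]

theorem Gd.add {F G : GQ × GQ → K} (h : Gd φ F) (h' : Gd φ G) : Gd φ fun g => F g + G g := by
  intro ε hε
  obtain ⟨k, hk⟩ := h ε hε
  obtain ⟨k', hk'⟩ := h' ε hε
  refine ⟨max k k', fun x hx => ?_⟩
  have e : ev (fun g => F g + G g) (Phi φ x) = ev F (Phi φ x) + ev G (Phi φ x) := by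
    rw [ev, ev, ev, ← Finset.sum_add_distrib]
    exact Finset.sum_congr rfl fun g _ => by ring
  rw [e]
  exact (IsUltrametricDist.norm_add_le_max _ _).trans_lt (max_lt
    (hk x fun i hi => hx i (hi.trans_le (le_max_left _ _)))
    (hk' x fun i hi => hx i (hi.trans_le (le_max_right _ _))))

theorem gd_sum {ι : Type} (s : Finset ι) (F : ι → GQ × GQ → K) (h : ∀ i ∈ s, Gd φ (F i)) :
    Gd φ fun g => ∑ i ∈ s, F i g := by
  classical
  induction s using Finset.induction_on with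
  | empty => simpa using gd_zero
  | insert a s ha ih =>
    simp only [Finset.sum_insert ha]
    exact (h a (Finset.mem_insert_self _ _)).add
      (ih fun i hi => h i (Finset.mem_insert_of_mem hi))

theorem gd_approx {F : GQ × GQ → K}
    (h : ∀ ε : ℝ, 0 < ε → ∃ G, Gd φ G ∧ ∀ g, ‖F g - G g‖ ≤ ε) : Gd φ F := by
  intro ε hε
  obtain ⟨G, hG, hd⟩ := h (ε / 2) (by positivity)
  obtain ⟨k, hk⟩ := hG ε hε
  refine ⟨k, fun x hx => ?_⟩
  have e : ev F (Phi φ x) = ev (fun g => F g - G g) (Phi φ x) + ev G (Phi φ x) := by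
    rw [ev, ev, ev, ← Finset.sum_add_distrib]
    exact Finset.sum_congr rfl fun g _ => by ring
  rw [e]
  refine (IsUltrametricDist.norm_add_le_max _ _).trans_lt (max_lt ?_ (hk x hx))
  refine lt_of_le_of_lt (IsUltrametricDist.norm_sum_le_of_forall_le_of_nonneg (C := ε / 2)
    (by positivity) fun g _ => ?_) (by linarith)
  rw [norm_mul]
  exact (mul_le_of_le_one_left (norm_nonneg _)
    (IsUltrametricDist.norm_intCast_le_one _ _)).trans (hd g)

end

/-! ### Eisenstein series -/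

theorem desc {A : Type} [Group A] (n : ℕ) [NeZero n] (α : GQ →* A)
    (h : ∀ g, cyc n g = 1 → α g = 1) : ∃ ω : (ZMod n)ˣ →* A, ∀ g, ω (cyc n g) = α g :=
  ⟨(cyc n).liftOfSurjective (cyc_surj n) ⟨α, fun g hg => h g hg⟩,
    fun g => MonoidHom.liftOfRightInverse_comp_apply _ _ _ _ g⟩

theorem dir (ι : Om ≃+* ℂ) (n : ℕ) [NeZero n] (α : GQ →* Omˣ) (h : ∀ g, cyc n g = 1 → α g = 1) :
    ∃ χ : DirichletCharacter ℂ n, ∀ g, χ (cyc n g : ZMod n) = ι (α g) := by
  obtain ⟨ω, hω⟩ := desc n α h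
  refine ⟨MulChar.ofUnitHom ((Units.map (ι : Om →* ℂ)).comp ω), fun g => ?_⟩
  rw [MulChar.ofUnitHom_coe, MonoidHom.comp_apply, hω]
  rfl

theorem eis_lim {M r κ : ℕ} [NeZero M] (hM : Odd M) (hκ : 2 ≤ κ) (α β : GQ →* Omˣ)
    (hα : ∀ g, cyc (M * 2 ^ r) g = 1 → α g = 1) (hβ : ∀ g, cyc (M * 2 ^ r) g = 1 → β g = 1)
    (hαβ : ∀ g, cyc (M * M) g = 1 → (α * β) g = 1) {c : GQ} (hc : IsConj c)
    (hp : (α c : Om) * β c = (-1) ^ (κ + 1)) (φ : PA (M * M) → GQ)
    (hφ : ∀ ℓ, IsFrob ℓ.1 (φ ℓ)) : Lim (M * M) (sy2 φ α (β * chiE Om ^ κ)) := by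
  obtain ⟨ι⟩ : Nonempty (Om ≃+* ℂ) := P022D.V.Emb.iso ℚ_[2]
  obtain ⟨χ, hχ⟩ := dir ι _ α hα
  obtain ⟨ψ, hψ⟩ := dir ι _ β hβ
  obtain ⟨ω, hω⟩ := dir ι _ _ hαβ
  obtain ⟨f, hf, h⟩ := P022F.Eis.eis (M * 2 ^ r) (M * 2 ^ r) κ (by omega) χ ψ (by
    rw [← cyc_conj hc, hχ, hψ, ← map_mul, hp, map_pow, map_neg, map_one])
  have key : ∀ l : ℕ, l.Prime → ¬ l ∣ 2 * M → ∀ g, IsFrob l g →
      χ (l : ZMod (M * 2 ^ r)) = ι (α g) ∧ ψ (l : ZMod (M * 2 ^ r)) = ι (β g) ∧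
        ω (l : ZMod (M * M)) = ι (α g) * ι (β g) := by
    intro l hl hd g hg
    have h1 : ¬ l ∣ M * 2 ^ r := fun h1 => hd (by
      rcases (Nat.Prime.dvd_mul hl).1 h1 with h2 | h2
      · exact h2.mul_left 2
      · exact (hl.dvd_of_dvd_pow h2).mul_right M)
    have h2 : ¬ l ∣ M * M := fun h2 => hd (by
      rcases (Nat.Prime.dvd_mul hl).1 h2 with h3 | h3 <;> exact h3.mul_left 2)
    rw [← cyc_frob hl h1 hg, ← cyc_frob hl h2 hg, hχ, hψ, hω, ← map_mul]
    exact ⟨rfl, rfl, rfl⟩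
  have h1 := drop ι (N := M * M) (s := 2 * r) (hM.mul hM) (by ring) f hf ω
    (fun l => χ (l : ZMod (M * 2 ^ r)) + ψ (l : ZMod (M * 2 ^ r)) * (l : ℂ) ^ κ)
    (fun ℓ => (h ℓ).1) fun ℓ => by
      obtain ⟨g, hg⟩ := H20.exists_isFrob ℓ.2.1
      obtain ⟨a1, a2, a3⟩ := key ℓ.1 ℓ.2.1 (fun hd => ℓ.2.2 (hd.trans
        (mul_dvd_mul_left 2 ((dvd_mul_right M _).mul_right _)))) g hg
      rw [(h ℓ).2, a1, a2, a3]
  convert h1 using 1
  funext s
  have h2 : ∀ ℓ : PA (M * M), ℓ.1 ≠ 2 := fun ℓ h => ℓ.2.2 (by rw [h]; exact dvd_mul_right 2 _)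
  have h3 := fun ℓ : PA (M * M) => key ℓ.1 ℓ.2.1 (fun hd => ℓ.2.2 (hd.trans
    (mul_dvd_mul_left 2 (dvd_mul_right M M)))) _ (hφ ℓ)
  rcases s with ℓ | ℓ
  · obtain ⟨a1, a2, -⟩ := h3 ℓ
    simp only [sy2, Sum.elim_inl]
    rw [a1, a2, MonoidHom.mul_apply, MonoidHom.pow_apply, Units.val_mul,
      Units.val_pow_eq_pow_val, chiE_frob ℓ.2.1 (h2 ℓ) (hφ ℓ)]
    simp
  · obtain ⟨-, -, a3⟩ := h3 ℓ
    simp only [sy2, Sum.elim_inr]
    rw [a3, MonoidHom.mul_apply, MonoidHom.pow_apply, Units.val_mul,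
      Units.val_pow_eq_pow_val, chiE_frob ℓ.2.1 (h2 ℓ) (hφ ℓ)]
    simp
    ring

/-- a character of conductor `2 ^ ∞` is close to a function modulo `2 ^ r` -/
theorem kw2_fun {K : Type} [NontriviallyNormedField K] [IsUltrametricDist K] {η : GQ →* Kˣ}
    (h : KW2 η) (ε : ℝ) (hε : 0 < ε) : ∃ (r : ℕ) (f : ZMod (2 ^ r) → K),
      ∀ g, ‖(η g : K) - f (cyc (2 ^ r) g)‖ < ε := by
  classical
  obtain ⟨r, hr⟩ := h ε hε
  choose G hG using cyc_surj (2 ^ r)
  refine ⟨r, fun u => if hu : IsUnit u then (η (G hu.unit) : K) else 0, fun g => ?_⟩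
  beta_reduce
  rw [dif_pos (Units.isUnit _), IsUnit.unit_of_val_units]
  have h1 := hr ((G (cyc (2 ^ r) g))⁻¹ * g) (by rw [map_mul, map_inv, hG, inv_mul_cancel])
  have e : (η g : K) - η (G (cyc (2 ^ r) g)) =
      η (G (cyc (2 ^ r) g)) * ((η ((G (cyc (2 ^ r) g))⁻¹ * g) : K) - 1) := by
    rw [mul_sub, ← Units.val_mul, ← map_mul, mul_inv_cancel_left, mul_one]
  rw [e, norm_mul, h.norm, one_mul]
  exact h1

/-- Fourier expansion -/
theorem fourier (n : ℕ) [NeZero n] (f : ZMod n → Om) :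
    ∃ c : DirichletCharacter Om n → Om, ∀ u : (ZMod n)ˣ, f u = ∑ χ, c χ * χ u := by
  classical
  have h0 : (n.totient : Om) ≠ 0 := by
    exact_mod_cast (Nat.totient_pos.2 (NeZero.pos n)).ne'
  haveI : NeZero ((Monoid.exponent (ZMod n)ˣ : ℕ) : Om) :=
    ⟨by exact_mod_cast Monoid.exponent_ne_zero_of_finite⟩
  refine ⟨fun χ => (n.totient : Om)⁻¹ * ∑ a : (ZMod n)ˣ, f a * χ (a : ZMod n)⁻¹, fun u => ?_⟩
  simp_rw [mul_assoc, Finset.sum_mul, mul_assoc]
  rw [← Finset.mul_sum, Finset.sum_comm]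
  simp_rw [← Finset.mul_sum]
  rw [Finset.sum_eq_single u]
  · rw [DirichletCharacter.sum_char_inv_mul_char_eq Om (Units.isUnit u), if_pos rfl]
    field_simp
  · intro a _ ha
    rw [DirichletCharacter.sum_char_inv_mul_char_eq Om (Units.isUnit a),
      if_neg (fun h => ha (Units.ext h)), mul_zero]
  · simp

theorem step1 {M κ : ℕ} [NeZero M] (hM : Odd M) (hκ : 2 ≤ κ) (a b η : GQ →* Omˣ)
    (ha : ∀ g, cyc M g = 1 → a g = 1) (hb : ∀ g, cyc M g = 1 → b g = 1) (hη : KW2 η) {c : GQ}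
    (hc : IsConj c) (hp : (a c : Om) * b c = (-1) ^ (κ + 1)) (φ : PA (M * M) → GQ)
    (hφ : ∀ ℓ, IsFrob ℓ.1 (φ ℓ)) :
    Gd φ fun g => (a g.1 : Om) * b g.2 * η (g.1 * g.2⁻¹) * (chiE Om g.2 : Om) ^ κ := by
  have nc : ∀ α : GQ →* Omˣ, (∀ g, cyc M g = 1 → α g = 1) → ∀ g, ‖(α g : Om)‖ = 1 := by
    intro α h g
    obtain ⟨ω, hω⟩ := desc M α h
    rw [← hω]
    exact norm_char ω _
  refine gd_approx fun ε hε => ?_
  obtain ⟨r, f, hf⟩ := kw2_fun hη ε hε
  obtain ⟨co, hco⟩ := fourier (2 ^ r) f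
  let u : DirichletCharacter Om (2 ^ r) → GQ →* Omˣ := fun χ => χ.toUnitHom.comp (cyc (2 ^ r))
  have hu : ∀ χ g, (u χ g : Om) = χ (cyc (2 ^ r) g : ZMod (2 ^ r)) := fun χ g =>
    MulChar.coe_toUnitHom χ _
  have hu1 : ∀ χ g, cyc (M * 2 ^ r) g = 1 → u χ g = 1 := fun χ g hg => by
    change χ.toUnitHom (cyc (2 ^ r) g) = 1
    rw [cyc_of_dvd (dvd_mul_left _ _) hg, map_one]
  refine ⟨fun g => ∑ χ, co χ * (((a * u χ) g.1 : Om) * ((b * (u χ)⁻¹ * chiE Om ^ κ) g.2 : Omˣ)),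
    gd_sum _ _ fun χ _ => Gd.smul _ ((gd_iff φ _ _).2 ?_), fun g => ?_⟩
  · refine eis_lim (r := r) hM hκ _ _ (fun g hg => ?_) (fun g hg => ?_) (fun g hg => ?_) hc ?_ φ hφ
    · rw [MonoidHom.mul_apply, hu1 χ g hg, ha g (cyc_of_dvd (dvd_mul_right _ _) hg), mul_one]
    · rw [MonoidHom.mul_apply, MonoidHom.inv_apply, hu1 χ g hg,
        hb g (cyc_of_dvd (dvd_mul_right _ _) hg), inv_one, mul_one]
    · simp only [MonoidHom.mul_apply, MonoidHom.inv_apply]
      rw [ha g (cyc_of_dvd (dvd_mul_right _ _) hg), hb g (cyc_of_dvd (dvd_mul_right _ _) hg),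
        one_mul, one_mul, mul_inv_cancel]
    · rw [← hp, ← Units.val_mul, ← Units.val_mul]
      simp only [MonoidHom.mul_apply, MonoidHom.inv_apply]
      rw [mul_mul_mul_comm, mul_inv_cancel, mul_one]
  · have e : ∑ χ, co χ * (((a * u χ) g.1 : Om) * ((b * (u χ)⁻¹ * chiE Om ^ κ) g.2 : Omˣ)) =
        (a g.1 : Om) * b g.2 * f (cyc (2 ^ r) (g.1 * g.2⁻¹)) * (chiE Om g.2 : Om) ^ κ := by
      rw [hco, Finset.mul_sum, Finset.sum_mul]
      refine Finset.sum_congr rfl fun χ _ => ?_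
      rw [← hu, map_mul, map_inv]
      simp only [MonoidHom.mul_apply, MonoidHom.inv_apply, MonoidHom.pow_apply, Units.val_mul,
        Units.val_pow_eq_pow_val]
      ring
    beta_reduce
    rw [e, ← sub_mul, ← mul_sub, norm_mul, norm_mul, norm_mul, norm_pow, nc a ha, nc b hb,
      kw2_chi.norm, one_pow, one_mul, one_mul, mul_one]
    exact (hf _).le

section

variable {E : Type} [NontriviallyNormedField E] [NormedAlgebra ℚ_[2] E]

/-- an even character is a limit of even polynomials in the cyclotomic character -/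
theorem even_poly [IsUltrametricDist E] [CompleteSpace E] {θ : GQ →* Eˣ} (h : KW2 θ) {c : GQ}
    (hc : IsConj c) (h1 : θ c = 1) (ε : ℝ) (hε : 0 < ε) : ∃ (n : ℕ) (co : ℕ → E),
      (∀ j, Odd j → co j = 0) ∧
        ∀ g, ‖(θ g : E) - ∑ j ∈ Finset.range n, co j * (chiE E g : E) ^ j‖ ≤ ε := by
  haveI : CharZero E := charZero_of_injective_algebraMap (algebraMap ℚ_[2] E).injective
  obtain ⟨r, f, hf⟩ := kw2_fun h (ε / 2) (by positivity)
  obtain ⟨p, hp⟩ := poly_approx r f (ε / 2) (by positivity)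
  have hz : Continuous (zE E) := (AddMonoidHomClass.isometry_of_norm _ norm_zE).continuous
  have h2 : ∀ g, ‖(θ g : E) - p.eval (chiE E g : E)‖ < ε / 2 := by
    intro g
    obtain ⟨n, hn1, hn2⟩ := PadicInt.denseRange_natCast.exists_mem_open
      (s := {w : ℤ_[2] | ‖(chi g : ℤ_[2]) - w‖ < (2 : ℝ) ^ (-(r : ℤ))} ∩
        {w | ‖p.eval (zE E w) - p.eval (chiE E g : E)‖ < ε / 2})
      ((isOpen_lt (by fun_prop) continuous_const).inter (isOpen_lt
        (((p.continuous.comp hz).sub continuous_const).norm) continuous_const))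
      ⟨chi g, by simp, by simpa [chiE_coe] using hε⟩
    have h3 := (norm_le_iff r _ _).1 (le_of_lt hn1)
    rw [chi_mod, map_natCast] at h3
    have h4 := hf g
    rw [h3] at h4
    rw [Set.mem_setOf_eq, map_natCast] at hn2
    rw [show (θ g : E) - p.eval (chiE E g : E) = ((θ g : E) - f n) + ((f n - p.eval (n : E)) +
      (p.eval (n : E) - p.eval (chiE E g : E))) by ring]
    exact (IsUltrametricDist.norm_add_le_max _ _).trans_lt (max_lt h4
      ((IsUltrametricDist.norm_add_le_max _ _).trans_lt (max_lt (hp n) hn2)))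
  refine ⟨p.natDegree + 1, fun j => 2⁻¹ * (p.coeff j * (1 + (-1) ^ j)), fun j hj => by
    simp [hj.neg_one_pow], fun g => ?_⟩
  have h3 := h2 (g * c)
  rw [map_mul, h1, mul_one, map_mul, Units.val_mul, chiE_conj hc] at h3
  have e : (θ g : E) - ∑ j ∈ Finset.range (p.natDegree + 1),
      2⁻¹ * (p.coeff j * (1 + (-1) ^ j)) * (chiE E g : E) ^ j =
        2⁻¹ * (((θ g : E) - p.eval (chiE E g : E)) +
          ((θ g : E) - p.eval ((chiE E g : E) * -1))) := by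
    rw [Polynomial.eval_eq_sum_range, Polynomial.eval_eq_sum_range]
    have e1 : ∑ j ∈ Finset.range (p.natDegree + 1),
        2⁻¹ * (p.coeff j * (1 + (-1) ^ j)) * (chiE E g : E) ^ j =
        2⁻¹ * (∑ j ∈ Finset.range (p.natDegree + 1), p.coeff j * (chiE E g : E) ^ j +
          ∑ j ∈ Finset.range (p.natDegree + 1), p.coeff j * ((chiE E g : E) * -1) ^ j) := by
      rw [← Finset.sum_add_distrib, Finset.mul_sum]
      exact Finset.sum_congr rfl fun j _ => by rw [mul_pow]; ring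
    rw [e1]
    ring
  rw [e, norm_mul, norm_inv, norm_two_E, inv_inv]
  have h4 := (IsUltrametricDist.norm_add_le_max _ _).trans_lt (max_lt (h2 g) h3)
  linarith

theorem ex_emb (E : Type) [NontriviallyNormedField E] [NormedAlgebra ℚ_[2] E]
    [FiniteDimensional ℚ_[2] E] : ∃ _ : NormedAlgebra E Om, IsScalarTower ℚ_[2] E Om := by
  let j : E →ₐ[ℚ_[2]] Om := IsAlgClosed.lift
  letI : Algebra E Om := j.toRingHom.toAlgebra
  haveI : IsScalarTower ℚ_[2] E Om := IsScalarTower.of_algebraMap_eq fun x => (j.commutes x).symm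
  exact ⟨{ norm_smul_le := fun x y => by
            rw [Algebra.smul_def, norm_mul, NormedAlgebra.norm_eq_spectralNorm ℚ_[2] x,
              spectralNorm.eq_of_tower (L := Om)]
            rfl }, inferInstance⟩

/-- **the sum of two characters** -/
theorem lim_red [FiniteDimensional ℚ_[2] E] {M : ℕ} [NeZero M] (hM : Odd M)
    (a b η₁ η₂ : GQ →* Eˣ) (ha : ∀ g, cyc M g = 1 → a g = 1) (hb : ∀ g, cyc M g = 1 → b g = 1)
    (h1 : KW2 η₁) (h2 : KW2 η₂) {c : GQ} (hc : IsConj c)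
    (hp : ((a * η₁) c : E) * (b * η₂) c = -1) (φ : PA (M * M) → GQ)
    (hφ : ∀ ℓ, IsFrob ℓ.1 (φ ℓ)) : Lim (M * M) (sy2 φ (a * η₁) (b * η₂)) := by
  haveI : IsUltrametricDist E := IsUltrametricDist.of_normedAlgebra ℚ_[2]
  haveI : CompleteSpace E := FiniteDimensional.complete ℚ_[2] E
  obtain ⟨_, _⟩ := ex_emb E
  have sq : ∀ α : GQ →* Eˣ, (α c : E) * α c = 1 := fun α => by
    rw [← Units.val_mul, ← map_mul, H20.conj_sq hc, map_one, Units.val_one]
  obtain ⟨κ, hκ, hκ1⟩ : ∃ κ : ℕ, 2 ≤ κ ∧ ((η₁ * η₂) c : E) = (-1) ^ κ := by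
    rcases mul_self_eq_one_iff.1 (sq (η₁ * η₂)) with h | h
    · exact ⟨2, le_rfl, by rw [h]; norm_num⟩
    · exact ⟨3, by norm_num, by rw [h]; norm_num⟩
  have hab : (a c : E) * b c = (-1) ^ (κ + 1) := by
    have := sq (η₁ * η₂)
    rw [pow_succ, ← hκ1, ← hp]
    simp only [MonoidHom.mul_apply, Units.val_mul] at this ⊢
    linear_combination (-((a c : E) * b c)) * this
  have hθ : KW2 (η₁ * η₂ * (chiE E ^ κ)⁻¹) := (h1.mul h2).mul (kw2_chi.pow κ).inv
  have hθc : (η₁ * η₂ * (chiE E ^ κ)⁻¹) c = 1 := by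
    rw [MonoidHom.mul_apply, MonoidHom.inv_apply, mul_inv_eq_one]
    apply Units.ext
    rw [hκ1, MonoidHom.pow_apply, Units.val_pow_eq_pow_val, chiE_conj hc]
  have nc : ∀ α : GQ →* Eˣ, (∀ g, cyc M g = 1 → α g = 1) → ∀ g, ‖(α g : E)‖ = 1 := by
    intro α h g
    obtain ⟨ω, hω⟩ := desc M α h
    rw [← hω]
    exact norm_char ω _
  have key : Gd φ fun g => algebraMap E Om (((a * η₁) g.1 : E) * (b * η₂) g.2) := by
    refine gd_approx fun ε hε => ?_
    obtain ⟨n, co, h0, hco⟩ := even_poly hθ hc hθc ε hε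
    refine ⟨fun g => ∑ j ∈ Finset.range n, algebraMap E Om (co j) * ((bcc Om a g.1 : Om) *
      bcc Om b g.2 * bcc Om η₁ (g.1 * g.2⁻¹) * (chiE Om g.2 : Om) ^ (κ + j)),
      gd_sum _ _ fun j _ => ?_, fun g => ?_⟩
    · rcases Nat.even_or_odd j with hj | hj
      · refine Gd.smul _ (step1 hM (by omega) _ _ _ (fun g hg => ?_) (fun g hg => ?_) (h1.bc Om)
          hc ?_ φ hφ)
        · exact Units.ext (by rw [bcc_coe, ha g hg]; simp)
        · exact Units.ext (by rw [bcc_coe, hb g hg]; simp)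
        · rw [bcc_coe, bcc_coe, ← map_mul, hab, add_right_comm, pow_add _ _ j, hj.neg_one_pow]
          simp
      · simpa [h0 j hj] using gd_zero
    · have e : ∑ j ∈ Finset.range n, algebraMap E Om (co j) * ((bcc Om a g.1 : Om) *
          bcc Om b g.2 * bcc Om η₁ (g.1 * g.2⁻¹) * (chiE Om g.2 : Om) ^ (κ + j)) =
          algebraMap E Om ((a g.1 : E) * b g.2 * η₁ (g.1 * g.2⁻¹) * (chiE E g.2 : E) ^ κ *
            ∑ j ∈ Finset.range n, co j * (chiE E g.2 : E) ^ j) := by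
        rw [Finset.mul_sum, map_sum]
        refine Finset.sum_congr rfl fun j _ => ?_
        simp only [bcc_coe, ← chiE_bc E Om, map_mul (algebraMap E Om), map_pow]
        ring
      have e2 : ((a * η₁) g.1 : E) * (b * η₂) g.2 =
          (a g.1 : E) * b g.2 * η₁ (g.1 * g.2⁻¹) * (chiE E g.2 : E) ^ κ *
            (η₁ * η₂ * (chiE E ^ κ)⁻¹) g.2 := by
        simp only [MonoidHom.mul_apply, MonoidHom.inv_apply, MonoidHom.pow_apply, map_mul,
          map_inv, Units.val_mul, Units.val_inv_eq_inv_val, Units.val_pow_eq_pow_val]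
        have := (η₁ g.2).ne_zero
        have := (chiE E g.2).ne_zero
        field_simp
      beta_reduce
      rw [e, e2, ← map_sub, norm_algebraMap', ← mul_sub, norm_mul, norm_mul, norm_mul, norm_mul,
        norm_pow, nc a ha, nc b hb, h1.norm, kw2_chi.norm, one_pow, one_mul, one_mul, one_mul,
        one_mul]
      exact hco _
  have key2 := (gd_iff φ (bcc Om (a * η₁)) (bcc Om (b * η₂))).1 (by
    simpa only [bcc_coe, map_mul (algebraMap E Om)] using key)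
  intro ε hε
  obtain ⟨k, hk⟩ := key2 ε hε
  refine ⟨k, fun x hx => ?_⟩
  have h3 := hk x hx
  have e : sy2 φ (bcc Om (a * η₁)) (bcc Om (b * η₂)) =
      fun s => algebraMap E Om (sy2 φ (a * η₁) (b * η₂) s) := by
    funext s
    rcases s with ℓ | ℓ
    · exact (map_add (algebraMap E Om) _ _).symm
    · exact (map_mul (algebraMap E Om) _ _).symm
  rwa [e, ← lift_map, norm_algebraMap'] at h3

end

end Vale.Agent.N022
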