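import Vale.Agent.N022.Red

/-!
# N022: reducible representations
-/

set_option linter.all false

open NumberField Matrix

noncomputable section

namespace Vale.Agent.N022

open Vale.Agent.P022 Vale.Agent.P022.H567.Tw Vale.Agent.P022.H853 Vale.Agent.P022.H790.CT
  Vale.Agent.P022D.Dk Vale.Agent.P022D.Top Vale.Agent.P022D.End

/-- the character is unramified at `p` -/
def UnrC {A : Type} [Monoid A] (χ : GQ →* A) (p : ℕ) : Prop :=
  ∀ P : Ideal (𝓞 Qb), P.IsPrime → (p : 𝓞 Qb) ∈ P → ∀ g : GQ,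
    (∀ x : 𝓞 Qb, g • x - x ∈ P) → χ g = 1

theorem cyc_pow {m R : ℕ} [NeZero m] [NeZero R] (hm : ∀ p : ℕ, p.Prime → p ∣ m → p ∣ R) {g : GQ}
    (hg : cyc R g = 1) : cyc m (g ^ R ^ m) = 1 := by
  have hd : m ∣ R ^ (m + 1) := by
    rw [← Nat.factorization_prime_le_iff_dvd (NeZero.ne m) (pow_ne_zero _ (NeZero.ne R))]
    intro p hp
    by_cases h : p ∣ m
    · have h1 := (hp.dvd_iff_one_le_factorization (NeZero.ne R)).1 (hm p hp h)
      have h2 := Nat.factorization_lt p (NeZero.ne m)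
      rw [Nat.factorization_pow, Finsupp.smul_apply, smul_eq_mul]
      nlinarith
    · rw [Nat.factorization_eq_zero_of_not_dvd h]
      exact Nat.zero_le _
  have h1 := (cyc_mod (R ^ (m + 1)) (dvd_pow_self R m.succ_ne_zero) g).trans (val_of_one hg)
  have h2 := dvd_sub_pow_of_dvd_sub (R := ℤ) (p := R) ((Nat.modEq_iff_dvd.1 h1.symm)) m
  refine cyc_of_dvd hd (Units.ext ?_)
  rw [map_pow, Units.val_pow_eq_pow_val, Units.val_one,
    ← ZMod.natCast_zmod_val (cyc (R ^ (m + 1)) g : ZMod (R ^ (m + 1))), ← sub_eq_zero]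
  have := (ZMod.intCast_zmod_eq_zero_iff_dvd _ (R ^ (m + 1))).2 (by exact_mod_cast h2)
  push_cast at this
  simpa using this

theorem unr_cyc {m p : ℕ} [NeZero m] (hp : p.Prime) (h : ¬ p ∣ m) : UnrC (cyc m) p := by
  intro P hP hpP g hg
  refine Units.ext ?_
  have := cyc_of_act (n := m) (a := 1) dvd_rfl (g := g) fun ζ hζ => by
    rw [pow_one]
    exact H811.L3.inert_zeta (NeZero.pos m) hp ((Nat.Prime.coprime_iff_not_dvd hp).2 h) P hP hpP
      hg ζ hζ
  simpa using this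

section

variable {E : Type} [NontriviallyNormedField E] [NormedAlgebra ℚ_[2] E]

theorem one_of_odd [IsUltrametricDist E] {x : E} (h : ‖x - 1‖ < 1) {n : ℕ} (hn : Odd n)
    (hx : x ^ n = 1) : x = 1 := by
  have h1 : ‖∑ i ∈ Finset.range n, x ^ i - n‖ < 1 := by
    have e : ∑ i ∈ Finset.range n, x ^ i - n = ∑ i ∈ Finset.range n, (x ^ i - 1 ^ i) := by
      rw [Finset.sum_sub_distrib]
      simp
    rw [e]
    exact lt_of_le_of_lt (IsUltrametricDist.norm_sum_le_of_forall_le_of_nonneg (norm_nonneg _)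
      fun i _ => norm_pow_sub_le (norm_one_of h).le norm_one.le i) h
  have h2 : ‖(n : E) - 1‖ < 1 := by
    obtain ⟨m, rfl⟩ := hn
    push_cast
    rw [add_sub_cancel_right, norm_mul, norm_two_E]
    have := IsUltrametricDist.norm_natCast_le_one E m
    linarith
  have h3 := mul_geom_sum x n
  rw [hx, sub_self] at h3
  refine sub_eq_zero.1 ((mul_eq_zero.1 h3).resolve_right fun h4 => ?_)
  rw [h4, zero_sub, norm_neg, norm_one_of h2] at h1
  exact lt_irrefl _ h1

variable [FiniteDimensional ℚ_[2] E]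

/-- the odd conductor of a character is bounded by the residual one and the ramified primes -/
theorem char_dec {χ : GQ →* Eˣ} (hc : Continuous χ) {M : ℕ} [NeZero M] (hM : Odd M)
    (hu : ∀ p : ℕ, p.Prime → ¬ p ∣ 2 * M → UnrC χ p)
    (h : ∀ g, cyc M g = 1 → ‖(χ g : E) - 1‖ < 1) :
    ∃ a η : GQ →* Eˣ, χ = a * η ∧ (∀ g, cyc M g = 1 → a g = 1) ∧ KW2 η := by
  haveI : IsUltrametricDist E := IsUltrametricDist.of_normedAlgebra ℚ_[2]
  obtain ⟨m, _, ψf, ψ2, hm, hc2, hdec, hun2, h2, hram⟩ := decomp C.GCHF χ hc (2 * M).primeFactors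
    fun p hp hpS => hu p hp fun hd => hpS (Nat.mem_primeFactors.2
      ⟨hp, hd, by have := NeZero.ne M; omega⟩)
  refine ⟨ψf.comp (cyc m), ψ2, MonoidHom.ext hdec, fun g hg => Units.ext ?_, kw2_of hc2 hun2⟩
  have h3 := cyc_pow (m := m) (fun p hp hd => by
    obtain ⟨P, hP, hpP, g, hg, hne⟩ := hram p hp hd
    by_contra hn
    refine hne (hu p hp (fun h4 => ?_) P hP hpP g hg)
    rcases (Nat.Prime.dvd_mul hp).1 h4 with h5 | h5
    · rw [(Nat.prime_dvd_prime_iff_eq hp Nat.prime_two).1 h5] at hd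
      exact (Nat.not_even_iff_odd.2 hm) (even_iff_two_dvd.2 hd)
    · exact hn h5) hg
  refine one_of_odd (n := M ^ m) ?_ hM.pow ?_
  · have h4 := h g hg
    rw [hdec, Units.val_mul, mul_comm] at h4
    refine near (y := (ψ2 g : E) * ψf (cyc m g) - 1) ?_ h4
    rw [sub_sub_sub_cancel_right, norm_sub_rev]
    exact near_mul (h2 g) (norm_char _ _).le
  · rw [← Units.val_pow_eq_pow_val, ← map_pow, MonoidHom.comp_apply, h3, map_one, Units.val_one]

theorem char_cond {χ : GQ →* Eˣ} (hc : Continuous χ) (S : Finset ℕ)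
    (hu : ∀ p : ℕ, p.Prime → p ∉ S → UnrC χ p) : ∃ (m : ℕ) (_ : NeZero m), Odd m ∧
      (∀ p : ℕ, p.Prime → p ∣ m → ¬ UnrC χ p) ∧ ∀ g, cyc m g = 1 → ‖(χ g : E) - 1‖ < 1 := by
  haveI : IsUltrametricDist E := IsUltrametricDist.of_normedAlgebra ℚ_[2]
  obtain ⟨m, _, ψf, ψ2, hm, -, hdec, -, h2, hram⟩ := decomp C.GCHF χ hc S hu
  refine ⟨m, inferInstance, hm, fun p hp hd hn => ?_, fun g hg => ?_⟩
  · obtain ⟨P, hP, hpP, g, hg, hne⟩ := hram p hp hd
    exact hne (hn P hP hpP g hg)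
  · rw [hdec, hg, map_one, one_mul]
    exact h2 g

theorem occ_of {N : ℕ} [NeZero N] {r : GQ →* GL (Fin 2) E} (hu : ∀ l : PA N, UnrAt r l.1)
    (φ : PA N → GQ) (hφ : ∀ l, IsFrob l.1 (φ l)) (hn : ∀ s, ‖sys r φ s‖ ≤ 1)
    (h : Lim N (sys r φ)) : Occurs E N r := by
  haveI : IsUltrametricDist E := IsUltrametricDist.of_normedAlgebra ℚ_[2]
  haveI : CompleteSpace E := FiniteDimensional.complete ℚ_[2] E
  obtain ⟨c, hc⟩ := contHom_of_lim hn h
  refine ⟨hu, c, fun l g hg => ?_⟩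
  obtain ⟨h1, h2⟩ := H20.frob_trace r l.2.1 (hu l) (hφ l) hg
  rw [hc, hc, h1, h2]
  exact ⟨rfl, rfl⟩

/-- the semisimplification of `r` is `χ₁ ⊕ χ₂` -/
structure Two (r : GQ →* GL (Fin 2) E) (χ₁ χ₂ : GQ →* Eˣ) : Prop where
  c1 : Continuous χ₁
  c2 : Continuous χ₂
  tr : ∀ g, (r g : Matrix (Fin 2) (Fin 2) E).trace = (χ₁ g : E) + χ₂ g
  det : ∀ g, (r g : Matrix (Fin 2) (Fin 2) E).det = (χ₁ g : E) * χ₂ g
  one : ∀ g, r g = 1 → χ₁ g = 1 ∧ χ₂ g = 1

theorem Two.occ {r : GQ →* GL (Fin 2) E} {χ₁ χ₂ : GQ →* Eˣ} (h : Two r χ₁ χ₂) (ho : OddRep r)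
    {M : ℕ} [NeZero M] (hM : Odd M) (hu : ∀ p : ℕ, p.Prime → ¬ p ∣ 2 * M → UnrAt r p)
    (h1 : ∀ g, cyc M g = 1 → ‖(χ₁ g : E) - 1‖ < 1) (h2 : ∀ g, cyc M g = 1 → ‖(χ₂ g : E) - 1‖ < 1) :
    Occurs E (M * M) r := by
  haveI : IsUltrametricDist E := IsUltrametricDist.of_normedAlgebra ℚ_[2]
  obtain ⟨a, η₁, rfl, ha, k1⟩ := char_dec h.c1 hM
    (fun p hp hd P hP hpP g hg => (h.one g (hu p hp hd P hP hpP g hg)).1) h1
  obtain ⟨b, η₂, rfl, hb, k2⟩ := char_dec h.c2 hM
    (fun p hp hd P hP hpP g hg => (h.one g (hu p hp hd P hP hpP g hg)).2) h2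
  obtain ⟨c, hc⟩ := H443.exists_isConj
  choose φ hφ using fun l : PA (M * M) => H20.exists_isFrob l.2.1
  have e : sys r φ = sy2 φ (a * η₁) (b * η₂) := by
    funext s
    rcases s with l | l
    · exact h.tr _
    · exact h.det _
  have nc : ∀ α η : GQ →* Eˣ, (∀ g, cyc M g = 1 → α g = 1) → KW2 η →
      ∀ g, ‖((α * η) g : E)‖ = 1 := by
    intro α η h k g
    obtain ⟨ω, hω⟩ := desc M α h
    rw [MonoidHom.mul_apply, Units.val_mul, norm_mul, k.norm, ← hω, norm_char, one_mul]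
  refine occ_of (fun l => hu l.1 l.2.1 fun hd => l.2.2 (hd.trans
    (mul_dvd_mul_left 2 (dvd_mul_right M M)))) φ hφ ?_ ?_
  · rw [e]
    rintro (l | l)
    · exact (IsUltrametricDist.norm_add_le_max _ _).trans
        (max_le (nc a η₁ ha k1 _).le (nc b η₂ hb k2 _).le)
    · change ‖_ * _‖ ≤ 1
      rw [norm_mul, nc a η₁ ha k1, nc b η₂ hb k2, one_mul]
  · rw [e]
    exact lim_red hM a b η₁ η₂ ha hb k1 k2 hc (by rw [← h.det, ho c hc]) φ hφ

omit [FiniteDimensional ℚ_[2] E] in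
/-- an odd representation with a stable line over the closure has a rational stable line -/
theorem ex_line {r : GQ →* GL (Fin 2) E} (ho : OddRep r) (h : ¬ St.AbsIrr r) :
    ∃ v : Fin 2 → E, v ≠ 0 ∧ ∀ g, ∃ a : E, (r g : Matrix (Fin 2) (Fin 2) E) *ᵥ v = a • v := by
  haveI : CharZero E := charZero_of_injective_algebraMap (algebraMap ℚ_[2] E).injective
  unfold St.AbsIrr at h
  push Not at h
  obtain ⟨w, w0, hw⟩ := h
  let f := algebraMap E (AlgebraicClosure E)
  have co : ∀ g, ∃ a, f ((r g).1 0 0) * w 0 + f ((r g).1 0 1) * w 1 = a * w 0 ∧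
      f ((r g).1 1 0) * w 0 + f ((r g).1 1 1) * w 1 = a * w 1 := fun g => by
    obtain ⟨a, ha⟩ := hw g
    exact ⟨a, by simpa [mulVec, dotProduct, Fin.sum_univ_two] using congrFun ha 0,
      by simpa [mulVec, dotProduct, Fin.sum_univ_two] using congrFun ha 1⟩
  have w1 : ∀ x : AlgebraicClosure E, x * w 0 = 0 → x * w 1 = 0 → x = 0 := fun x a b => by
    by_contra hx
    exact w0 (funext fun i => by
      fin_cases i
      · exact (mul_eq_zero.1 a).resolve_left hx
      · exact (mul_eq_zero.1 b).resolve_left hx)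
  obtain ⟨c, hc⟩ := H443.exists_isConj
  have hd := ho c hc
  have hs : (r c).1 * (r c).1 = 1 := by
    rw [← Units.val_mul, ← map_mul, H20.conj_sq hc, map_one, Units.val_one]
  obtain ⟨a, a0, a1⟩ := co c
  generalize (r c).1 = A at hd hs a0 a1
  rw [Matrix.det_fin_two] at hd
  have s00 := congrFun (congrFun hs 0) 0
  have s11 := congrFun (congrFun hs 1) 1
  simp [Matrix.mul_apply, Fin.sum_univ_two] at s00 s11
  have ht : A 1 1 = -A 0 0 := eq_neg_of_add_eq_zero_left (pow_eq_zero_iff two_ne_zero |>.1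
    (by linear_combination s00 + s11 + 2 * hd))
  rw [ht] at hd a1
  have hd' := congrArg f hd
  simp only [map_sub, map_mul, map_neg, map_one] at hd' a1
  have ha : a * a = 1 := sub_eq_zero.1 (w1 _
    (by linear_combination (-(a + f (A 0 0))) * a0 - f (A 0 1) * a1 - w 0 * hd')
    (by linear_combination (-f (A 1 0)) * a0 - (a - f (A 0 0)) * a1 - w 1 * hd'))
  obtain ⟨b, b0, rfl⟩ : ∃ b : E, b ≠ 0 ∧ f b = a := by
    rcases mul_self_eq_one_iff.1 ha with h | h
    · exact ⟨1, one_ne_zero, by rw [h, map_one]⟩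
    · exact ⟨-1, by simp, by rw [h, map_neg, map_one]⟩
  obtain ⟨v, v0, hv⟩ : ∃ v : Fin 2 → E, v ≠ 0 ∧ f (v 0) * w 1 = f (v 1) * w 0 := by
    by_cases h : A 0 0 + b = 0
    · refine ⟨![A 0 1, b - A 0 0], fun h1 => b0 ?_, ?_⟩
      · have h2 := congrFun h1 1
        simp only [cons_val_one, cons_val_zero, Pi.zero_apply] at h2
        linear_combination (h + h2) / 2
      · simp only [cons_val_one, cons_val_zero, map_sub]
        linear_combination a0
    · refine ⟨![A 0 0 + b, A 1 0], fun h1 => h (congrFun h1 0), ?_⟩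
      simp only [cons_val_one, cons_val_zero, map_add]
      linear_combination -a1
  refine ⟨v, v0, fun g => ?_⟩
  obtain ⟨a, a0, a1⟩ := co g
  have hq : ((r g).1 0 0 * v 0 + (r g).1 0 1 * v 1) * v 1 =
      ((r g).1 1 0 * v 0 + (r g).1 1 1 * v 1) * v 0 := by
    refine f.injective (sub_eq_zero.1 ?_)
    simp only [map_add, map_mul]
    refine w1 _ (w1 _ ?_ ?_) (w1 _ ?_ ?_)
    · linear_combination (f (v 0) * f (v 0) * w 1) * a0 - (f (v 0) * f (v 0) * w 0) * a1 +
        (-(f ((r g).1 0 0) * f (v 0) * w 0) - f ((r g).1 0 1) * (f (v 0) * w 1 + f (v 1) * w 0) +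
          f ((r g).1 1 1) * f (v 0) * w 0) * hv
    · linear_combination (f (v 0) * f (v 1) * w 1) * a0 - (f (v 0) * f (v 1) * w 0) * a1 +
        (-(f ((r g).1 0 1) * f (v 1) * w 1) - f ((r g).1 1 0) * f (v 0) * w 0) * hv
    · linear_combination (f (v 0) * f (v 1) * w 1) * a0 - (f (v 0) * f (v 1) * w 0) * a1 +
        (-(f ((r g).1 0 1) * f (v 1) * w 1) - f ((r g).1 1 0) * f (v 0) * w 0) * hv
    · linear_combination (f (v 1) * f (v 1) * w 1) * a0 - (f (v 1) * f (v 1) * w 0) * a1 +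
        (f ((r g).1 0 0) * f (v 1) * w 1 - f ((r g).1 1 0) * (f (v 0) * w 1 + f (v 1) * w 0) -
          f ((r g).1 1 1) * f (v 1) * w 1) * hv
  by_cases h : v 0 = 0
  · have h1 : v 1 ≠ 0 := fun h1 => v0 (funext fun i => by fin_cases i <;> assumption)
    refine ⟨(r g).1 1 1, funext fun i => ?_⟩
    rw [h] at hq
    fin_cases i
    · simpa [mulVec, dotProduct, Fin.sum_univ_two, h, h1] using hq
    · simp [mulVec, dotProduct, Fin.sum_univ_two, h]
  · refine ⟨((r g).1 0 0 * v 0 + (r g).1 0 1 * v 1) / v 0, funext fun i => ?_⟩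
    fin_cases i
    · simp [mulVec, dotProduct, Fin.sum_univ_two, h]
    · simp only [mulVec, dotProduct, Fin.sum_univ_two, Pi.smul_apply, smul_eq_mul]
      field_simp
      simpa [mul_comm] using hq.symm

omit [FiniteDimensional ℚ_[2] E] in
theorem ex_two {r : GQ →* GL (Fin 2) E} (hc : Continuous r) (ho : OddRep r) (h : ¬ St.AbsIrr r) :
    ∃ χ₁ χ₂, Two r χ₁ χ₂ := by
  obtain ⟨v, v0, hv⟩ := ex_line ho h
  choose a ha using hv
  have inj : ∀ x y : E, x • v = y • v → x = y := fun x y h => smul_left_injective E v0 h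
  let α : GQ →* E :=
    { toFun := a
      map_one' := inj _ _ (by rw [← ha, map_one, Units.val_one, one_mulVec, one_smul])
      map_mul' := fun g k => inj _ _ (by
        rw [← ha, map_mul, Units.val_mul, ← mulVec_mulVec, ha, mulVec_smul, ha, smul_smul,
          mul_comm]) }
  have hα : ∀ g, (α.toHomUnits g : E) = a g := fun _ => rfl
  obtain ⟨i, hi⟩ := Function.ne_iff.1 v0
  have c1 : Continuous α.toHomUnits := by
    rw [Units.isEmbedding_val₀.continuous_iff]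
    have e : Units.val ∘ α.toHomUnits =
        fun g => ((r g : Matrix (Fin 2) (Fin 2) E) *ᵥ v) i / v i := by
      funext g
      rw [ha, Pi.smul_apply, smul_eq_mul, mul_div_cancel_right₀ _ hi]
      rfl
    rw [e]
    exact ((continuous_apply i).comp
      ((Units.continuous_val.comp hc).matrix_mulVec continuous_const)).div_const _
  have e2 : ∀ g, ((detc r * α.toHomUnits⁻¹) g : E) =
      (r g : Matrix (Fin 2) (Fin 2) E).det * (a g)⁻¹ := fun g => by
    rw [MonoidHom.mul_apply, MonoidHom.inv_apply, Units.val_mul, Units.val_inv_eq_inv_val]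
    rfl
  refine ⟨α.toHomUnits, detc r * α.toHomUnits⁻¹, c1, (detc_cont hc).mul c1.inv, fun g => ?_,
    fun g => ?_, fun g hg => ?_⟩
  · have a0 : a g ≠ 0 := (α.toHomUnits g).ne_zero
    have b0 := congrFun (ha g) 0
    have b1 := congrFun (ha g) 1
    simp only [mulVec, dotProduct, Fin.sum_univ_two, Pi.smul_apply, smul_eq_mul] at b0 b1
    rw [e2, hα, Matrix.trace_fin_two, Matrix.det_fin_two]
    generalize (r g : Matrix (Fin 2) (Fin 2) E) = A at b0 b1
    field_simp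
    refine inj _ _ (funext fun j => ?_)
    fin_cases j
    · simp only [Pi.smul_apply, smul_eq_mul, Fin.zero_eta]
      linear_combination (a g - A 1 1) * b0 + A 0 1 * b1
    · simp only [Pi.smul_apply, smul_eq_mul, Fin.mk_one]
      linear_combination (a g - A 0 0) * b1 + A 1 0 * b0
  · have a0 : a g ≠ 0 := (α.toHomUnits g).ne_zero
    rw [e2, hα]
    field_simp
  · have h1 : α.toHomUnits g = 1 := Units.ext (inj _ _ (by
      rw [hα, ← ha, hg, Units.val_one, one_mulVec, Units.val_one, one_smul]))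
    refine ⟨h1, ?_⟩
    change Matrix.GeneralLinearGroup.det (r g) * (α.toHomUnits g)⁻¹ = 1
    rw [h1, hg, map_one, inv_one, mul_one]

/-- **the conclusion of Q1 for reducible representations** -/
theorem q1_red {r : GQ →* GL (Fin 2) E} (hc : Continuous r) (ho : OddRep r) (h : ¬ St.AbsIrr r)
    (hS : {p : ℕ | p.Prime ∧ ¬ UnrAt r p}.Finite) : Q1Concl E r := by
  classical
  obtain ⟨χ₁, χ₂, h⟩ := ex_two hc ho h
  have hu : ∀ p : ℕ, p.Prime → p ∉ hS.toFinset → UnrAt r p := fun p hp hn => by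
    by_contra hne
    exact hn (hS.mem_toFinset.2 ⟨hp, hne⟩)
  obtain ⟨m₁, _, o1, r1, k1⟩ := char_cond h.c1 hS.toFinset
    fun p hp hn P hP hpP g hg => (h.one g (hu p hp hn P hP hpP g hg)).1
  obtain ⟨m₂, _, o2, r2, k2⟩ := char_cond h.c2 hS.toFinset
    fun p hp hn P hP hpP g hg => (h.one g (hu p hp hn P hP hpP g hg)).2
  let S : Finset ℕ := hS.toFinset.erase 2
  have hmem : ∀ p, p ∈ S ↔ p ≠ 2 ∧ p.Prime ∧ ¬ UnrAt r p := fun p => by
    rw [Finset.mem_erase, hS.mem_toFinset]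
    rfl
  have hRo : Odd (∏ l ∈ S, l) := Finset.prod_induction _ Odd (fun _ _ => Odd.mul) odd_one
    fun l hl => ((hmem l).1 hl).2.1.odd_of_ne_two ((hmem l).1 hl).1
  have hM : Odd (m₁ * m₂ * ∏ l ∈ S, l) := (o1.mul o2).mul hRo
  haveI : NeZero (m₁ * m₂ * ∏ l ∈ S, l) := ⟨hM.pos.ne'⟩
  refine ⟨_, inferInstance, hM.mul hM, fun p hp hd hn => ?_, h.occ ho hM (fun p hp hd => ?_)
    (fun g hg => k1 g (cyc_of_dvd ((dvd_mul_right _ _).mul_right _) hg))
    fun g hg => k2 g (cyc_of_dvd ((dvd_mul_left _ _).mul_right _) hg)⟩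
  · have h1 := ((Nat.Prime.dvd_mul hp).1 hd).elim id id
    rcases (Nat.Prime.dvd_mul hp).1 h1 with h2 | h2
    · rcases (Nat.Prime.dvd_mul hp).1 h2 with h3 | h3
      · exact r1 p hp h3 fun P hP hpP g hg => (h.one g (hn P hP hpP g hg)).1
      · exact r2 p hp h3 fun P hP hpP g hg => (h.one g (hn P hP hpP g hg)).2
    · obtain ⟨l, hl, h3⟩ := (Prime.dvd_finsetProd_iff hp.prime _).1 h2
      rw [(Nat.prime_dvd_prime_iff_eq hp ((hmem l).1 hl).2.1).1 h3] at hn
      exact ((hmem l).1 hl).2.2 hn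
  · by_contra hn
    by_cases h2 : p = 2
    · exact hd (by rw [h2]; exact dvd_mul_right 2 _)
    · exact hd (((Finset.dvd_prod_of_mem (fun l => l) ((hmem p).2 ⟨h2, hp, hn⟩)).mul_left
        _).mul_left 2)

end

end Vale.Agent.N022
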