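import Vale.Agent.N022.Lev
import Vale.Agent.P022D.Fm.Out

/-!
# N022: one level for all representations of a residual class
-/

set_option linter.all false

open NumberField Matrix

noncomputable section

namespace Vale.Agent.N022

open Vale.Agent.P022 Vale.Agent.P022.H567.Tw Vale.Agent.P022.H853 Vale.Agent.P022.H790.CT
  Vale.Agent.P022D Vale.Agent.P022D.Dk Vale.Agent.P022D.Top Vale.Agent.P022D.End

/-- the theorems of the starting files which are used -/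
structure Cores : Prop where
  d : P022D.Top.CORE
  e : P022E.Top.CORE
  g : P022G.Top.CORE
  s : P022S.Top.CORE
  k : P022K.CH.SERRE

/-- `S` is a finite set of odd primes -/
def OddS (S : Finset ℕ) : Prop := ∀ l ∈ S, l.Prime ∧ l ≠ 2

/-- unramified outside `S` and two -/
def UnrS {E : Type} [Field E] (S : Finset ℕ) (r : GQ →* GL (Fin 2) E) : Prop :=
  ∀ p : ℕ, p.Prime → p ≠ 2 → p ∉ S → UnrAt r p

/-- the primes of `N` lie in `S` -/
def InS (S : Finset ℕ) (N : ℕ) : Prop := ∀ p : ℕ, p.Prime → p ∣ N → p ∈ S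

theorem InS.mul {S : Finset ℕ} {a b : ℕ} (ha : InS S a) (hb : InS S b) : InS S (a * b) :=
  fun p hp h => ((Nat.Prime.dvd_mul hp).1 h).elim (ha p hp) (hb p hp)

theorem InS.pow {S : Finset ℕ} {a : ℕ} (ha : InS S a) (n : ℕ) : InS S (a ^ n) :=
  fun p hp h => ha p hp (hp.dvd_of_dvd_pow h)

theorem OddS.inS {S : Finset ℕ} (h : OddS S) : InS S (∏ l ∈ S, l) := fun p hp hd => by
  obtain ⟨l, hl, h3⟩ := (Prime.dvd_finsetProd_iff hp.prime _).1 hd
  rwa [(Nat.prime_dvd_prime_iff_eq hp (h l hl).1).1 h3]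

theorem InS.odd {S : Finset ℕ} (h : OddS S) {N : ℕ} (hN : InS S N) : Odd N :=
  Nat.not_even_iff_odd.1 fun h2 => (h 2 (hN 2 Nat.prime_two (even_iff_two_dvd.1 h2))).2 rfl

theorem UnrS.of {E : Type} [Field E] {S : Finset ℕ} {r : GQ →* GL (Fin 2) E} (h : UnrS S r)
    {M : ℕ} (hM : (∏ l ∈ S, l) ∣ M) (p : ℕ) (hp : p.Prime) (hd : ¬ p ∣ 2 * M) : UnrAt r p :=
  h p hp (fun h2 => hd (by rw [h2]; exact dvd_mul_right 2 _)) fun hS =>
    hd (((Finset.dvd_prod_of_mem (fun l => l) hS).trans hM).mul_left 2)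

theorem wtA (hC : Cores) (R N₀ : ℕ) [NeZero R] [NeZero N₀] : ∃ n : ℕ, 0 < n ∧ ∀ (E : Type)
    [NontriviallyNormedField E] [NormedAlgebra ℚ_[2] E] [IsUltrametricDist E]
    [FiniteDimensional ℚ_[2] E] (r : GQ →* GL (Fin 2) E) (S : Finset ℕ)
    (ω : (ZMod R)ˣ →* Eˣ) (ψ : GQ →* Eˣ) (i : ℕ), Continuous r → OddRep r → NF r → DetOne r →
    OddS S → R = ∏ l ∈ S, l → UnrS S r → LevT r N₀ → 1 ≤ i → KW2 ψ →
    (∀ g, (r g : Matrix (Fin 2) (Fin 2) E).det =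
      ((ω (cyc R g) : Eˣ) : E) * ((ψ g : Eˣ) : E) ^ 2 * ((chiE E g : Eˣ) : E) ^ i) →
    (∃ ζ : E, IsPrimitiveRoot ζ n) → Occurs E ((N₀ * R) ^ 2) r := by
  obtain ⟨a, ha, h1⟩ := hC.d R N₀
  obtain ⟨b, hb, h2⟩ := hC.e R N₀
  obtain ⟨c, hc, h3⟩ := hC.g R N₀
  obtain ⟨d, hd, h4⟩ := hC.s R N₀
  have hn : 0 < a * b * c * d := by positivity
  refine ⟨_, hn, fun E _ _ _ _ r S ω ψ i k1 k2 k3 k4 k5 k6 k7 k8 k9 k10 k11 ⟨ζ, hζ⟩ => ?_⟩
  have hL := k8.lev k3.int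
  rcases k3 with ⟨M, h⟩ | h | ⟨M, h⟩ | h
  · exact wt h1 E r M S ω ψ i k1 k2 h k4 k5 k6 k7 hL k9 k10 k11
      ⟨_, hζ.pow (a := b * c * d) hn (by ring)⟩
  · exact P022E.End.wtE h2 E r S ω ψ i k1 k2 h k4 k5 k6 k7 hL (k8.ns h.ns) k9 k10 k11
      ⟨_, hζ.pow (a := a * c * d) hn (by ring)⟩
  · exact P022G.Top.wtG h3 E r M S ω ψ i k1 k2 h k4 k5 k6 k7 hL k9 k10 k11
      ⟨_, hζ.pow (a := a * b * d) hn (by ring)⟩
  · exact P022S.Top.wtS h4 E r S ω ψ i k1 k2 h k4 k5 k6 k7 hL k9 k10 k11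
      ⟨_, hζ.pow (a := a * b * c) hn (by ring)⟩

section

variable {E : Type} [NontriviallyNormedField E] [NormedAlgebra ℚ_[2] E]
  [FiniteDimensional ℚ_[2] E] {r : GQ →* GL (Fin 2) E} {S : Finset ℕ}

theorem unr_detc {p : ℕ} (h : UnrAt r p) : UnrC (detc r) p := fun P hP hpP g hg => by
  change Matrix.GeneralLinearGroup.det (r g) = 1
  rw [h P hP hpP g hg, map_one]

/-- normal forms of residual determinant one -/
theorem co (hC : Cores) [IsUltrametricDist E] (hc : Continuous r) (ho : OddRep r) (hn : NF r)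
    (hd : DetOne r) (hS : OddS S) {R : ℕ} [NeZero R] (hR : R = ∏ l ∈ S, l) (hu : UnrS S r)
    {N₀ : ℕ} [NeZero N₀] (hL : LevT r N₀) : LimR ((N₀ * R) ^ 2) r := by
  obtain ⟨a, ψ2, hdec, ha, hk2⟩ := char_dec (detc_cont hc) (M := R) (hR ▸ hS.inS.odd hS)
    (fun p hp h => unr_detc (hu.of (dvd_of_eq hR.symm) p hp h)) fun g _ => hd g
  obtain ⟨ω, hω⟩ := desc R a ha
  obtain ⟨n, hn0, hCn⟩ := wtA hC R N₀
  obtain ⟨c, hcc⟩ := H443.exists_isConj
  obtain ⟨i, hi, hic⟩ : ∃ i : ℕ, 1 ≤ i ∧ (ψ2 * (chiE E ^ i)⁻¹) c = 1 := by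
    have h1 : ((ψ2 c : Eˣ) : E) ^ 2 = 1 := by
      rw [← Units.val_pow_eq_pow_val, ← map_pow, sq, H20.conj_sq hcc, map_one, Units.val_one]
    have h2 : ∀ i, ((ψ2 c : Eˣ) : E) = (-1) ^ i → (ψ2 * (chiE E ^ i)⁻¹) c = 1 := fun i h => by
      change ψ2 c * (chiE E c ^ i)⁻¹ = 1
      rw [mul_inv_eq_one]
      apply Units.ext
      rw [h, Units.val_pow_eq_pow_val, chiE_conj hcc]
    rcases sq_eq_one_iff.1 h1 with h | h
    · exact ⟨2, by norm_num, h2 2 (by rw [h]; norm_num)⟩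
    · exact ⟨1, le_rfl, h2 1 (by rw [h]; norm_num)⟩
  have hη : KW2 (ψ2 * (chiE E ^ i)⁻¹) := hk2.mul (kw2_chi.pow i).inv
  obtain ⟨g0, hg0, hg1⟩ := ex_five
  set η := ψ2 * (chiE E ^ i)⁻¹ with hηd
  obtain ⟨E', i1, i2, i3, i4, i5, i6, hp⟩ := ext_split E
    ((Polynomial.X ^ 2 - Polynomial.C ((η g0 : Eˣ) : E)) * Polynomial.cyclotomic n E)
  have hcE' : CompleteSpace E' := FiniteDimensional.complete ℚ_[2] E'
  haveI : CharZero E' := charZero_of_injective_algebraMap (algebraMap ℚ_[2] E').injective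
  rw [Polynomial.map_mul, Polynomial.map_cyclotomic, Polynomial.map_sub, Polynomial.map_pow,
    Polynomial.map_X, Polynomial.map_C] at hp
  have hne : (Polynomial.X ^ 2 - Polynomial.C (algebraMap E E' ((η g0 : Eˣ) : E))) *
      Polynomial.cyclotomic n E' ≠ 0 :=
    mul_ne_zero (Polynomial.X_pow_sub_C_ne_zero two_pos _) (Polynomial.cyclotomic_ne_zero n E')
  obtain ⟨s, hs⟩ := (hp.of_dvd hne (dvd_mul_right _ _)).exists_eval_eq_zero (by
    rw [Polynomial.degree_X_pow_sub_C two_pos]; simp)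
  obtain ⟨ζ, hζ⟩ := (hp.of_dvd hne (dvd_mul_left _ _)).exists_eval_eq_zero (by
    rw [Polynomial.degree_cyclotomic]
    exact_mod_cast (Nat.totient_pos.2 hn0).ne')
  haveI : NeZero (n : E') := ⟨by exact_mod_cast hn0.ne'⟩
  have hζ' : IsPrimitiveRoot ζ n := Polynomial.isRoot_cyclotomic_iff.1 hζ
  have hs' : s ^ 2 = ((bcc E' η g0 : E'ˣ) : E') := by
    rw [bcc_coe]
    simpa [sub_eq_zero] using hs
  obtain ⟨ψ, hψ, hψ2⟩ := sqrt_char (hη.bc E') hcc (by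
      change Units.map _ (η c) = 1
      rw [hic, map_one]) hg0 hg1 hs' (norm_lt_of_sq (by rw [hs']; exact (hη.bc E').res g0))
  have m := md_bc E' hc
  refine m.lim (limR_of_st (St.occurs _ _ (hCn E' (bc E' r) S (bcc E' ω) ψ i m.cont (m.odd ho)
    (hn.bc E') (m.sim.detOne hd) hS hR (fun p a b c => m.unr.2 (hu p a b c)) (m.sim.lev hL) hi hψ
    (fun g => ?_) ⟨ζ, hζ'⟩)))
  rw [H20.bc_det, ← detc_coe, hdec, ← Units.val_pow_eq_pow_val (ψ g), hψ2, bcc_coe, bcc_coe,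
    ← chiE_bc E E', ← map_pow, ← map_mul, ← map_mul, mul_assoc, hω, MonoidHom.mul_apply,
    Units.val_mul]
  congr 2
  rw [← Units.val_pow_eq_pow_val, ← Units.val_mul]
  congr 1
  change ψ2 g = ψ2 g * (chiE E g ^ i)⁻¹ * chiE E g ^ i
  rw [inv_mul_cancel_right]

theorem td_le (hc : Continuous r) : ∀ y, ‖td r y‖ ≤ 1 := by
  obtain ⟨k₀, _, _, _, ρ₀, O, π, hO, ht⟩ := P022S.H1.exRes E r hc
  rintro (g | g)
  · obtain ⟨t, d, a, -, -, -⟩ := ht g
    exact (congrArg norm a).symm.le.trans ((hO _).1 t.2)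
  · obtain ⟨t, d, -, a, -, -⟩ := ht g
    exact (congrArg norm a).symm.le.trans ((hO _).1 d.2)

theorem occ_lim (hc : Continuous r) {N : ℕ} [NeZero N] (hu : ∀ l : PA N, UnrAt r l.1)
    (h : LimR N r) : Occurs E N r := by
  choose φ hφ using fun l : PA N => H20.exists_isFrob l.2.1
  refine occ_of hu φ hφ ?_ (h φ hφ)
  rintro (l | l)
  · exact td_le hc (Sum.inl _)
  · exact td_le hc (Sum.inr _)

theorem occ_raise (hc : Continuous r) {N N' : ℕ} [NeZero N] [NeZero N'] (hd : N ∣ N')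
    (h : Occurs E N r) : Occurs E N' r :=
  occ_lim hc (fun l => h.1 ⟨l.1, l.2.1, fun h1 => l.2.2 (h1.trans (mul_dvd_mul_left 2 hd))⟩)
    (Fm.Out.raise hd (limR_of_st (St.occurs _ _ h)))

/-- irreducible representations of residual determinant one -/
theorem irr_one (hC : Cores) (hc : Continuous r) (ho : OddRep r) (hi : St.AbsIrr r)
    (hd : DetOne r) (hS : OddS S) {R : ℕ} [NeZero R] (hR : R = ∏ l ∈ S, l) (hu : UnrS S r)
    {N₀ : ℕ} [NeZero N₀] (hL : LevT r N₀) : Occurs E ((N₀ * R) ^ 2) r := by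
  obtain ⟨E', _, _, _, _, s, m, hn, -⟩ := nf hC.k hc ho hi
  refine occ_lim hc (fun l => hu.of ?_ l.1 l.2.1 l.2.2) (m.lim (co hC m.cont (m.odd ho) hn
    (m.sim.detOne hd) hS hR (fun p a b c => m.unr.2 (hu p a b c)) (m.sim.lev hL)))
  exact ((dvd_of_eq hR.symm).mul_left N₀).trans (dvd_pow_self _ two_ne_zero)

theorem UnrS.fin (hu : UnrS S r) : {p : ℕ | p.Prime ∧ ¬ UnrAt r p}.Finite :=
  (S.finite_toSet.insert 2).subset fun p hp => by
    by_contra hne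
    rw [Set.mem_insert_iff, not_or] at hne
    exact hp.2 (hu p hp.1 hne.1 hne.2)

theorem tunr {p : ℕ} (h : UnrAt r p) : TUnr r p := fun g ⟨P, hP, hpP, hg⟩ k => by
  rw [map_mul, h P hP hpP g hg, one_mul, sub_self, norm_zero]
  exact one_pos

theorem ex_lev (hC : Cores) (hc : Continuous r) (ho : OddRep r) (hi : St.AbsIrr r)
    (hd : DetOne r) (hu : UnrS S r) : ∃ (N₀ : ℕ) (_ : NeZero N₀), LevT r N₀ ∧ InS S N₀ := by
  obtain ⟨E', _, _, _, _, s, m, -, h⟩ := nf hC.k hc ho hi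
  obtain ⟨N₀, _, h⟩ := h hd hu.fin
  have h1 := m.sim.symm.lev h
  refine ⟨N₀, inferInstance, h1, fun p hp hN => ?_⟩
  by_contra hn
  refine h1.ram p hp hN (tunr (hu p hp ?_ hn))
  rintro rfl
  exact (Nat.not_even_iff_odd.2 h1.odd) (even_iff_two_dvd.2 hN)

omit [NormedAlgebra ℚ_[2] E] [FiniteDimensional ℚ_[2] E] in
theorem irr_tws {μ : GQ →* Eˣ} (hi : St.AbsIrr r) : St.AbsIrr (tws μ r) := by
  intro w w0
  obtain ⟨g, hg⟩ := hi w w0
  refine ⟨g, fun a h => hg ((algebraMap E _ (μ g))⁻¹ * a) ?_⟩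
  have h0 : algebraMap E (AlgebraicClosure E) (μ g) ≠ 0 := by simpa using (μ g).ne_zero
  rw [mul_smul, ← h, tws_apply]
  have e : ((μ g : E) • (r g : Matrix (Fin 2) (Fin 2) E)).map (algebraMap E (AlgebraicClosure E)) =
      algebraMap E (AlgebraicClosure E) (μ g) •
        (r g : Matrix (Fin 2) (Fin 2) E).map (algebraMap E (AlgebraicClosure E)) := by
    ext i j
    simp
  rw [e, smul_mulVec, smul_smul, inv_mul_cancel₀ h0, one_smul]

/-- `μ` is a character of conductor `M` which lifts the `n`-th power of the determinant -/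
structure Nm (r : GQ →* GL (Fin 2) E) (M n : ℕ) [NeZero M] (μ : GQ →* Eˣ) : Prop where
  ker : ∀ g, cyc M g = 1 → μ g = 1
  near : ∀ g, ‖(μ g : E) - (r g : Matrix (Fin 2) (Fin 2) E).det ^ n‖ < 1

variable {M n : ℕ} [NeZero M] {μ : GQ →* Eˣ}

theorem ex_nm (hc : Continuous r) (hM : Odd M) (hu : ∀ p : ℕ, p.Prime → ¬ p ∣ 2 * M → UnrAt r p)
    (h : ∀ g, cyc M g = 1 → ‖(r g : Matrix (Fin 2) (Fin 2) E).det - 1‖ < 1) (n : ℕ) :
    ∃ μ, Nm r M n μ := by
  haveI : IsUltrametricDist E := IsUltrametricDist.of_normedAlgebra ℚ_[2]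
  obtain ⟨a, η, hdec, ha, hk⟩ := char_dec (detc_cont hc) hM
    (fun p hp h => unr_detc (hu p hp h)) h
  obtain ⟨ω, hω⟩ := desc M a ha
  refine ⟨a ^ n, fun g hg => by rw [MonoidHom.pow_apply, ha g hg, one_pow], fun g => ?_⟩
  have h1 : ‖(a g : E)‖ = 1 := by rw [← hω, norm_char]
  rw [MonoidHom.pow_apply, Units.val_pow_eq_pow_val]
  refine (norm_pow_sub_le h1.le (td_le hc (Sum.inr g)) n).trans_lt ?_
  change ‖_ - ((detc r g : Eˣ) : E)‖ < 1
  rw [hdec, MonoidHom.mul_apply, Units.val_mul, norm_sub_rev, mul_comm]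
  exact near_mul (hk.res g) h1.le

omit [NormedAlgebra ℚ_[2] E] [FiniteDimensional ℚ_[2] E] in
theorem Nm.cont (h : Nm r M n μ) : Continuous μ := by
  refine continuous_of_continuousAt_one μ (continuousAt_const.congr (f := fun _ => 1) ?_)
  filter_upwards [(isOpen_cyc M).mem_nhds (one_mem _)] with g hg
  exact (h.ker g hg).symm

omit [NormedAlgebra ℚ_[2] E] [FiniteDimensional ℚ_[2] E] in
theorem Nm.unr (h : Nm r M n μ) (hM : InS S M) (hu : UnrS S r) : UnrS S (tws μ r) :=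
  fun p hp h2 hn => unr_tws (fun P hP hpP g hg => h.ker g
    (unr_cyc hp (fun hd => hn (hM p hp hd)) P hP hpP g hg)) (hu p hp h2 hn)

theorem Nm.det (h : Nm r M n μ) (hc : Continuous r)
    (hb : ∀ g, ‖(r g : Matrix (Fin 2) (Fin 2) E).det ^ (2 * n + 1) - 1‖ < 1) :
    DetOne (tws μ r) := fun g => by
  haveI : IsUltrametricDist E := IsUltrametricDist.of_normedAlgebra ℚ_[2]
  obtain ⟨ω, hω⟩ := desc M μ h.ker
  have h1 : ‖(μ g : E)‖ = 1 := by rw [← hω, norm_char]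
  have h2 : ‖(r g : Matrix (Fin 2) (Fin 2) E).det‖ ≤ 1 := td_le hc (Sum.inr g)
  have h3 := (norm_pow_sub_le h1.le (by rw [norm_pow]; exact pow_le_one₀ (norm_nonneg _) h2)
    2).trans_lt (h.near g)
  rw [tws_det]
  convert nad (mlt h2 h3) (hb g) using 2
  ring

/-- the words for the normalised twist -/
def sg (n : ℕ) : GQ ⊕ GQ → FreeAlgebra ℤ (GQ ⊕ GQ) :=
  Sum.elim (fun g => FreeAlgebra.ι ℤ (Sum.inr g) ^ n * FreeAlgebra.ι ℤ (Sum.inl g)) fun _ => 1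

theorem Nm.iff (h : Nm r M n μ) (hc : Continuous r) (hd : DetOne (tws μ r))
    (X : FreeAlgebra ℤ (GQ ⊕ GQ)) : ‖FreeAlgebra.lift ℤ (td (tws μ r)) X‖ < 1 ↔
      ‖FreeAlgebra.lift ℤ (td r) (FreeAlgebra.lift ℤ (sg n) X)‖ < 1 := by
  haveI : IsUltrametricDist E := IsUltrametricDist.of_normedAlgebra ℚ_[2]
  have e := lift_map (FreeAlgebra.lift ℤ (td r)).toRingHom (sg n) X
  have e1 : ∀ g, (FreeAlgebra.lift ℤ (td r)).toRingHom (sg n (Sum.inl g)) =
      td r (Sum.inr g) ^ n * td r (Sum.inl g) := fun g => by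
    simp [sg]
  have e2 : ∀ g, (FreeAlgebra.lift ℤ (td r)).toRingHom (sg n (Sum.inr g)) = 1 := fun g => by
    simp [sg]
  have k := lift_near (a := td (tws μ r))
    (b := fun y => (FreeAlgebra.lift ℤ (td r)).toRingHom (sg n y))
    (td_le (continuous_tws h.cont hc)) (by
      rintro (g | g)
      · rw [e1, norm_mul, norm_pow]
        exact mul_le_one₀ (pow_le_one₀ (norm_nonneg _) (td_le hc _)) (norm_nonneg _) (td_le hc _)
      · rw [e2, norm_one]) (by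
      rintro (g | g)
      · rw [e1]
        have := mlt (td_le hc (Sum.inl g)) (h.near g)
        convert this using 2
        change (tws μ r g : Matrix (Fin 2) (Fin 2) E).trace - _ = _
        rw [tws_tr]
        simp only [td, Sum.elim_inl, Sum.elim_inr]
        ring
      · rw [e2]
        exact hd g) X
  rw [← e] at k
  exact ⟨fun h1 => End.near (by rwa [norm_sub_rev]) h1, End.near k⟩

theorem Nm.occ (h : Nm r M n μ) {N : ℕ} [NeZero N] (h1 : Occurs E N (tws μ r)) :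
    Occurs E (N * M * M ^ 2) r := by
  obtain ⟨ω, hω⟩ := desc M μ h.ker
  refine occurs_twist E N M ω⁻¹ _ r h1 fun g u hg => ?_
  have h1 : cyc M g = u := Units.ext ((cyc_of_act dvd_rfl hg).trans (ZMod.natCast_zmod_val _))
  rw [tws_apply, smul_smul, ← h1, MonoidHom.inv_apply, hω, Units.inv_mul, one_smul]

theorem two_one {χ₁ χ₂ : GQ →* Eˣ} (h : Two r χ₁ χ₂) {g : GQ}
    (h1 : ‖(r g : Matrix (Fin 2) (Fin 2) E).trace‖ < 1)
    (h2 : ‖(r g : Matrix (Fin 2) (Fin 2) E).det - 1‖ < 1) :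
    ‖(χ₁ g : E) - 1‖ < 1 ∧ ‖(χ₂ g : E) - 1‖ < 1 := by
  haveI : IsUltrametricDist E := IsUltrametricDist.of_normedAlgebra ℚ_[2]
  rw [h.tr] at h1
  rw [h.det] at h2
  have k : ∀ x y : E, ‖x + y‖ < 1 → ‖x * y - 1‖ < 1 → ‖x - 1‖ < 1 := by
    intro x y a b
    have c : ‖x‖ ≤ 1 := by
      by_contra hx
      push Not at hx
      have h3 := norm_one_of b
      have h4 : ‖y‖ < 1 := by
        rw [norm_mul] at h3
        by_contra hy
        push Not at hy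
        nlinarith
      have := nlt a h4
      rw [add_sub_cancel_right] at this
      linarith
    refine norm_lt_of_sq ?_
    convert nlt (nlt (mlt c a) b) (show ‖(2 : E)‖ < 1 by rw [norm_two_E]; norm_num) using 2
    ring
  exact ⟨k _ _ h1 h2, k _ _ (by rwa [add_comm]) (by rwa [mul_comm])⟩

end

/-- the kernel of the residual system of traces and determinants -/
def kr {E : Type} [NontriviallyNormedField E] (r : GQ →* GL (Fin 2) E) :
    Set (FreeAlgebra ℤ (GQ ⊕ GQ)) := {X | ‖FreeAlgebra.lift ℤ (td r) X‖ < 1}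

theorem sim_of {E E' : Type} [NontriviallyNormedField E] [NontriviallyNormedField E']
    {r : GQ →* GL (Fin 2) E} {s : GQ →* GL (Fin 2) E'} (h : kr r = kr s) : Sim r s :=
  fun X => Set.ext_iff.1 h X

/-- all representations with a property occur at one level -/
def One (S : Finset ℕ) (Φ : ∀ (E : Type) [NontriviallyNormedField E], (GQ →* GL (Fin 2) E) → Prop) :
    Prop := ∃ (N : ℕ) (_ : NeZero N), InS S N ∧ ∀ (E : Type) [NontriviallyNormedField E]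
  [NormedAlgebra ℚ_[2] E] [FiniteDimensional ℚ_[2] E] (r : GQ →* GL (Fin 2) E),
  Continuous r → OddRep r → UnrS S r → Φ E r → Occurs E N r

theorem one_of {S : Finset ℕ}
    {Φ : ∀ (E : Type) [NontriviallyNormedField E], (GQ →* GL (Fin 2) E) → Prop}
    (h : ∀ (E : Type) [NontriviallyNormedField E] [NormedAlgebra ℚ_[2] E]
      [FiniteDimensional ℚ_[2] E] (r : GQ →* GL (Fin 2) E), Continuous r → OddRep r → UnrS S r →
      Φ E r → One S Φ) : One S Φ := by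
  by_contra hn
  exact hn ⟨1, inferInstance, fun p hp hd => absurd (Nat.dvd_one.1 hd) hp.one_lt.ne',
    fun E _ _ _ r a b c d => absurd (h E r a b c d) hn⟩

theorem cond_inS {E : Type} [NontriviallyNormedField E] [NormedAlgebra ℚ_[2] E]
    [FiniteDimensional ℚ_[2] E] {S : Finset ℕ} {χ : GQ →* Eˣ} (hc : Continuous χ)
    (hu : ∀ p : ℕ, p.Prime → p ≠ 2 → p ∉ S → UnrC χ p) : ∃ (m : ℕ) (_ : NeZero m), InS S m ∧
      ∀ g, cyc m g = 1 → ‖(χ g : E) - 1‖ < 1 := by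
  classical
  obtain ⟨m, _, h1, h2, h3⟩ := char_cond hc (insert 2 S) fun p hp hn =>
    hu p hp (fun h => hn (by simp [h])) fun h => hn (by simp [h])
  refine ⟨m, inferInstance, fun p hp hd => ?_, h3⟩
  by_contra hn
  refine h2 p hp hd (hu p hp ?_ hn)
  rintro rfl
  exact (Nat.not_even_iff_odd.2 h1) (even_iff_two_dvd.2 hd)

theorem irr_class (hC : Cores) {S : Finset ℕ} (hS : OddS S) (n : ℕ)
    (c : Set (FreeAlgebra ℤ (GQ ⊕ GQ))) : One S fun E _ r => St.AbsIrr r ∧ kr r = c ∧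
      ∀ g, ‖(r g : Matrix (Fin 2) (Fin 2) E).det ^ (2 * n + 1) - 1‖ < 1 := by
  refine one_of fun E₀ _ _ _ r₀ c0 o0 u0 ⟨i0, k0, b0⟩ => ?_
  obtain ⟨m, _, hm, h0⟩ := cond_inS (detc_cont c0) fun p a b c => unr_detc (u0 p a b c)
  haveI : NeZero (∏ l ∈ S, l) := ⟨(hS.inS.odd hS).pos.ne'⟩
  have hM := hm.mul hS.inS
  have h1 : ∀ g, cyc (m * ∏ l ∈ S, l) g = 1 → ‖(r₀ g).1.det - 1‖ < 1 := fun g hg =>
    h0 g (cyc_of_dvd (dvd_mul_right _ _) hg)
  obtain ⟨μ₀, n0⟩ := ex_nm c0 (hM.odd hS) (u0.of (dvd_mul_left _ _)) h1 n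
  obtain ⟨N₀, _, hL, hN⟩ := ex_lev hC (continuous_tws n0.cont c0) (odd_tws o0) (irr_tws i0)
    (n0.det c0 b0) (n0.unr hM u0)
  refine ⟨(N₀ * ∏ l ∈ S, l) ^ 2 * (m * ∏ l ∈ S, l) * (m * ∏ l ∈ S, l) ^ 2, inferInstance,
    (((hN.mul hS.inS).pow 2).mul hM).mul (hM.pow 2), fun E _ _ _ r c1 o1 u1 ⟨i1, k1, b1⟩ => ?_⟩
  have s := sim_of (k0.trans k1.symm)
  obtain ⟨μ, n1⟩ := ex_nm c1 (hM.odd hS) (u1.of (dvd_mul_left _ _))
    (fun g hg => by simpa using s.det g 1 (by simpa using h1 g hg)) n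
  refine n1.occ (irr_one hC (continuous_tws n1.cont c1) (odd_tws o1) (irr_tws i1) (n1.det c1 b1)
    hS rfl (n1.unr hM u1) (Sim.lev (fun X => ?_) hL))
  rw [n0.iff c0 (n0.det c0 b0), n1.iff c1 (n1.det c1 b1)]
  exact s _

theorem red_class {S : Finset ℕ} (hS : OddS S) (c : Set (FreeAlgebra ℤ (GQ ⊕ GQ))) :
    One S fun E _ r => ¬ St.AbsIrr r ∧ kr r = c := by
  refine one_of fun E₀ _ _ _ r₀ c0 o0 u0 ⟨i0, k0⟩ => ?_
  haveI : IsUltrametricDist E₀ := IsUltrametricDist.of_normedAlgebra ℚ_[2]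
  obtain ⟨χ₁, χ₂, t0⟩ := ex_two c0 o0 i0
  obtain ⟨m₁, _, hm₁, h1⟩ := cond_inS t0.c1
    fun p a b c P hP hpP g hg => (t0.one g (u0 p a b c P hP hpP g hg)).1
  obtain ⟨m₂, _, hm₂, h2⟩ := cond_inS t0.c2
    fun p a b c P hP hpP g hg => (t0.one g (u0 p a b c P hP hpP g hg)).2
  have hM := (hm₁.mul hm₂).mul hS.inS
  haveI : NeZero (m₁ * m₂ * ∏ l ∈ S, l) := ⟨(hM.odd hS).pos.ne'⟩
  refine ⟨_, inferInstance, hM.mul hM, fun E _ _ _ r c1 o1 u1 ⟨i1, k1⟩ => ?_⟩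
  obtain ⟨ψ₁, ψ₂, t1⟩ := ex_two c1 o1 i1
  have s := sim_of (k0.trans k1.symm)
  have k : ∀ g, cyc (m₁ * m₂ * ∏ l ∈ S, l) g = 1 →
      ‖(ψ₁ g : E) - 1‖ < 1 ∧ ‖(ψ₂ g : E) - 1‖ < 1 := fun g hg => by
    have a := h1 g (cyc_of_dvd ((dvd_mul_right _ _).mul_right _) hg)
    have b := h2 g (cyc_of_dvd ((dvd_mul_left _ _).mul_right _) hg)
    refine two_one t1 (s.tr g ?_) (by
      simpa using s.det g 1 (by
        rw [t0.det, pow_one]
        convert nad (mlt (norm_one_of a).le b) a using 2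
        ring))
    rw [t0.tr]
    convert nad (nad a b) (show ‖(2 : E₀)‖ < 1 by rw [norm_two_E]; norm_num) using 2
    ring
  exact t1.occ o1 (hM.odd hS) (u1.of (dvd_mul_left _ _)) (fun g hg => (k g hg).1)
    fun g hg => (k g hg).2

/-- residually trivial representations -/
theorem triv (hC : Cores) {S : Finset ℕ} (hS : OddS S) {R : ℕ} [NeZero R] (hR : R = ∏ l ∈ S, l)
    {E : Type} [NontriviallyNormedField E] [NormedAlgebra ℚ_[2] E] [FiniteDimensional ℚ_[2] E]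
    {r : GQ →* GL (Fin 2) E} (hc : Continuous r) (ho : OddRep r) (hu : UnrS S r)
    (ht : ∀ g, ‖(r g : Matrix (Fin 2) (Fin 2) E).trace‖ < 1) (hd : DetOne r) :
    Occurs E (R ^ 2) r := by
  haveI : IsUltrametricDist E := IsUltrametricDist.of_normedAlgebra ℚ_[2]
  by_cases hi : St.AbsIrr r
  · obtain ⟨N₀, _, hL, -⟩ := ex_lev hC hc ho hi hd hu
    have h1 : N₀ = 1 := by
      by_contra h
      obtain ⟨p, hp, hd⟩ := Nat.exists_prime_and_dvd h
      exact hL.ram p hp hd fun g _ k => nlt (ht _) (ht _)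
    exact occ_raise hc (by rw [h1, one_mul]) (irr_one hC hc ho hi hd hS hR hu hL)
  · obtain ⟨χ₁, χ₂, t⟩ := ex_two hc ho hi
    exact occ_raise hc (by rw [sq]) (t.occ ho (M := R) (hR ▸ hS.inS.odd hS)
      (hu.of (dvd_of_eq hR.symm)) (fun g _ => (two_one t (ht g) (hd g)).1)
      fun g _ => (two_one t (ht g) (hd g)).2)

/-- finitely many classes -/
theorem fin_class (hC : Cores) {S : Finset ℕ} (hS : OddS S) (n : ℕ)
    {C : Set (Set (FreeAlgebra ℤ (GQ ⊕ GQ)))} (hf : C.Finite) : One S fun E _ r => kr r ∈ C ∧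
      ∀ g, ‖(r g : Matrix (Fin 2) (Fin 2) E).det ^ (2 * n + 1) - 1‖ < 1 := by
  induction C, hf using Set.Finite.induction_on with
  | empty => exact one_of fun _ _ _ _ _ _ _ _ h => h.1.elim
  | @insert c C _ _ ih =>
    obtain ⟨a, _, a1, a2⟩ := ih
    obtain ⟨b, _, b1, b2⟩ := irr_class hC hS n c
    obtain ⟨d, _, d1, d2⟩ := red_class hS c
    refine ⟨a * b * d, inferInstance, (a1.mul b1).mul d1, fun E _ _ _ r c1 o1 u1 ⟨k, h⟩ => ?_⟩
    rcases k with k | k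
    · by_cases hi : St.AbsIrr r
      · exact occ_raise c1 ((dvd_mul_left _ _).mul_right _) (b2 E r c1 o1 u1 ⟨hi, k, h⟩)
      · exact occ_raise c1 (dvd_mul_left _ _) (d2 E r c1 o1 u1 ⟨hi, k⟩)
    · exact occ_raise c1 ((dvd_mul_right _ _).mul_right _) (a2 E r c1 o1 u1 ⟨k, h⟩)

end Vale.Agent.N022
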